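import Crest.Agent.N49.Sy.Defs
import Crest.Agent.N49.En.Mono
import Crest.Agent.N49.Tw.ConM
import Crest.Agent.N49.Tw.Api
import Crest.Agent.N49.Ir.Op

/-!
# Row 49 (helper64): the symbol tower is the law of the earlier stages on the shape
-/

set_option autoImplicit false
set_option linter.unusedSectionVars false

open Finset Matrix MvPolynomial

noncomputable section

namespace Crest.Agent.N49.Sy

open Tw Po

namespace Swt

theorem det_uni {C : Type} [Fintype C] [DecidableEq C] (lev : C → ℕ) {N : Matrix C C ℝ}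
    (h : ∀ i j, lev i ≤ lev j → N i j = if i = j then 1 else 0) : N.det = 1 := by
  have b : Nᵀ.BlockTriangular lev := fun i j e =>
    (h j i e.le).trans (if_neg fun k => e.ne (congrArg lev k))
  rw [← det_transpose, b.det]
  refine prod_eq_one fun a _ => ?_
  rw [show Nᵀ.toSquareBlock lev a = 1 from Matrix.ext fun i j =>
    (h j.1 i.1 (j.2.trans i.2.symm).le).trans (if_congr (Subtype.ext_iff.symm.trans eq_comm) rfl rfl),
    det_one]

variable {σ : Type} {T : TS σ} {d : T.C → ℝ}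

theorem wt_dg (k : T.K⁻¹ = diagonal d * diagonal d) (y : T.C → ℤ) :
    Ir.wt (fun y c => d c * T.u y c) y = T.wt y := by
  have e := Ir.qf_tr (diagonal d) (T.u (zc y))
  rw [diagonal_transpose] at e
  rw [Ir.wt, TS.wt, gs, gs, k, e]
  exact congrArg (fun x => Real.exp (-(Real.pi * qf 1 x))) (funext fun c =>
    (mulVec_diagonal _ _ _).symm)

theorem irr_dg (h : T.Tri) (k : T.K⁻¹ = diagonal d * diagonal d) (z : T.u 0 = 0) :
    Ir.irr (fun y c => d c * T.u y c) = T.Z / T.Zc := by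
  have a : Ir.lp (fun y c => d c * T.u y c) = diagonal d * T.A *
      of fun c c' => (Pi.single c' 1 - T.th (Pi.single c' 1) : T.C → ℝ) c := by
    ext c c'
    rw [Matrix.mul_assoc, diagonal_mul, Ir.lp, of_apply, h.u_eq]
    rfl
  have b : T.Zc = |(diagonal d * T.A).det|⁻¹ := by
    rw [← Ir.dt_tr, TS.Zc, h.D_inv, k, transpose_mul, diagonal_transpose]
    simp only [Matrix.mul_assoc]
  rw [Ir.irr, a, b, det_mul _ (of _), det_uni T.lev (N := of _) fun c c' e => ?_, mul_one,
    div_inv_eq_mul, Ir.ZZ, funext (wt_dg k), TS.Z]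
  rw [of_apply, Pi.sub_apply, h.th_low (y' := 0) fun j hj =>
    Pi.single_eq_of_ne (fun n => by subst n; omega) _, TS.th, z, mulVec_zero, sub_zero,
    Pi.zero_apply, sub_zero, Pi.single_apply]

end Swt

open Swt

variable {τ : Type} [Fintype τ] [DecidableEq τ] {T : TS Unit} {W : Finset (Finset τ)}
  {la : Finset τ → ℝ} {st : T.C → ℕ} {M t : ℕ}

namespace Swt

theorem deg_ind (B : Finset τ) : (ind B).degree = #B :=
  (sum_congr rfl fun _ h => if_pos h).trans (card_eq_sum_ones B).symm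

theorem wd_ex (w : (shp W la).W) : ∃ B ∈ W, ind B = w.1 := mem_image.1 (mem_of_mem_erase w.2)

theorem dn_ind (h : Dw W) : Dn (W.image ind) := fun μ k ν e => by
  obtain ⟨B, hB, rfl⟩ := mem_image.1 k
  refine mem_image.2 ⟨ν.support, h B hB _ (Finsupp.support_mono e), Finsupp.ext fun i => ?_⟩
  have := e i
  simp only [ind_apply, Finsupp.mem_support_iff] at *
  split_ifs at * <;> omega

theorem shp_K : (shp W la).K = diagonal fun w => (la w.1.support ^ 2)⁻¹ := by
  ext (w : {μ // μ ∈ (W.image ind).erase 0}) (w' : {μ // μ ∈ (W.image ind).erase 0})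
  change (if w.1 = w'.1 then (la w.1.support ^ 2)⁻¹ else 0) =
    if w = w' then (la w.1.support ^ 2)⁻¹ else 0
  exact if_congr Subtype.ext_iff.symm rfl rfl

theorem la_pos (hl : ∀ B ∈ W, 0 < la B) (w : (shp W la).W) : 0 < la w.1.support := by
  obtain ⟨B, h, e⟩ := wd_ex w
  exact e ▸ hl B h

theorem shp_ok (h : Dw W) (hl : ∀ B ∈ W, 0 < la B) : (shp W la).Ok :=
  Sh.mono_ok (dn_ind h) (by
    change (shp W la).K.PosDef
    rw [shp_K]
    exact PosDef.diagonal fun w => inv_pos.2 (pow_pos (la_pos hl w) 2))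
    fun μ _ ν _ z => by rw [show μ = ν from by_contra fun n => z (if_neg n)]

theorem shp_ε : (shp W la).ε = 0 := funext fun _ => sum_eq_zero fun _ _ => ite_self _

variable (la) in
/-- the coordinate of the shape -/
def cw (h : T.Tri) (c : T.C) (B : Finset τ) (k : B ∈ W) (e : #B = T.lev c) : T.Cw (shp W la) :=
  ⟨(c, ⟨ind B, mem_erase.2 ⟨fun z => (h.lev_pos c).ne' (by rw [← e, ind_eq_zero.1 z, card_empty]),
    mem_image_of_mem _ k⟩⟩), unit_ext ((degree_col _ _).trans ((deg_ind B).trans e))⟩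

theorem cw_ex (h : T.Tri) (x : T.Cw (shp W la)) : ∃ c B k e, x = cw la h c B k e :=
  let ⟨B, k, e⟩ := wd_ex x.1.2
  ⟨x.1.1, B, k, (deg_ind B).symm.trans ((congrArg _ e).trans ((degree_col _ _).symm.trans
    (congrArg _ x.2))), Subtype.ext (Prod.ext rfl (Subtype.ext e.symm))⟩

variable (la) in
/-- the bijection -/
def fw (h : T.Tri) (w : SC T (fun c => st c < t) W) : (lwt T W st t la).C :=
  ⟨cw la h w.1.1 w.1.2 w.2.2.1 w.2.2.2, (TS.lw_lev _).trans_lt w.2.1⟩

theorem fw_bij (h : T.Tri) : Function.Bijective (fw (W := W) (st := st) (t := t) la h) := by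
  refine ⟨fun w w' e => Subtype.ext (Prod.ext (congrArg (fun x => x.1.1.1) e)
    (ind_inj (congrArg (fun x => x.1.1.2.1) e))), fun ⟨x, hx⟩ => ?_⟩
  obtain ⟨c, B, k, n, rfl⟩ := cw_ex h x
  exact ⟨⟨(c, B), (TS.lw_lev _).symm.trans_lt hx, k, n⟩, rfl⟩

theorem rho_Yw (h : T.Tri) (y : (lwt T W st t la).C → ℝ) (c : T.C) :
    En.rho (shp W la) ℝ (T.Yw (shp W la) (glue (fun x : T.Cw (shp W la) =>
      (T.lw (shp W la) st (T.tw0 (shp W la))).lev x < t) y 0) c) =
      Yp T.lev (sx T (fun c => st c < t) W (y ∘ fw la h)) c := by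
  rw [TS.Yw, Yp, map_sum]
  refine sum_of_injOn (fun x => x.1.2.1.support) (fun x hx x' hx' e => ?_) (fun x hx => ?_)
    (fun B _ n => ?_) fun x hx => ?_
  · obtain ⟨c, B, k, n, rfl⟩ := cw_ex h x
    obtain ⟨c', B', k', n', rfl⟩ := cw_ex h x'
    obtain rfl : c = c' := (mem_filter.1 hx).2.trans (mem_filter.1 hx').2.symm
    obtain rfl : B = B' := e
    rfl
  · obtain ⟨c', B, k, n, rfl⟩ := cw_ex h x
    obtain rfl : c' = c := (mem_filter.1 hx).2
    exact mem_powersetCard.2 ⟨subset_univ _, n⟩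
  · rw [sx, dif_neg fun k => n ⟨cw la h c B k.2.1 k.2.2, mem_filter.2 ⟨mem_univ _, rfl⟩, rfl⟩,
      map_zero]
  · obtain ⟨c', B, k, n, rfl⟩ := cw_ex h x
    obtain rfl : c' = c := (mem_filter.1 hx).2
    rw [X, C_mul_monomial, mul_one, En.rho_mon, Finsupp.weight_single, one_smul]
    refine congrArg (monomial (ind B)) ?_
    by_cases z : st c' < t
    · exact (glue_val y 0 (fw la h ⟨(c', B), z, k, n⟩)).trans (Eq.symm (dif_pos ⟨z, k, n⟩))
    · refine (glue_neg (c := cw la h c' B k n) _ _ fun e =>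
        z ((TS.lw_lev (cw la h c' B k n)).symm.trans_lt e)).trans (Eq.symm ?_)
      exact dif_neg fun e => z e.1

theorem hz_sy (y : T.C → Finset τ → ℝ) (F : T.C) {B : Finset τ} (e : #B = T.lev F) :
    coeff (ind B) (T.hz 0 (Yp T.lev y) F) = sy T.lev (T.Φ F) y B := by
  rw [TS.hz, coeff_sum, congrArg (sy T.lev · y B) (as_sum (T.Φ F)), sy_sum]
  refine sum_congr rfl fun m _ => ?_
  by_cases z : T.lev F - Finsupp.weight T.lev m = 0
  · rw [z, pow_zero, one_mul, sy]
  · rw [zero_pow z, zero_mul, coeff_zero,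
      sy_hom _ (isWeightedHomogeneous_monomial _ _ _ rfl) _ (by omega)]

theorem u_fw (h : T.Tri) (y : (lwt T W st t la).C → ℝ) (w : SC T (fun c => st c < t) W) :
    (lwt T W st t la).u y (fw la h w) =
      sP T (fun c => st c < t) W (T.Φ w.1.1) w.1.2 (y ∘ fw la h) := by
  refine (TS.u_cut _ _ 0 _ _).trans ((TS.tw_u _ _).trans ((En.cf_rho _ _).trans
    (Eq.trans (congrArg (coeff (ind w.1.2)) ?_) (hz_sy _ _ w.2.2.2))))
  have a := fun Y => TS.eval₂_tw0 (T := T) (S := shp W la) (R := ℝ) Y w.1.1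
  rw [shp_ε, show (shp W la).el (R := ℝ) 0 = 0 by simp [Sh.el],
    show MvPolynomial.map (algebraMap ℝ ℝ) = RingHom.id (MvPolynomial (shp W la).W ℝ) by
      ext1 <;> simp] at a
  refine (congrArg (En.rho (shp W la) ℝ) (a _)).trans ((T.hz_map _ _ _ _).trans ?_)
  rw [map_zero, zc_zero]
  exact congrArg (T.hz 0 · _) (funext (rho_Yw h y))

theorem K_inv (k : T.K = 1) (hl : ∀ B ∈ W, 0 < la B) : (lwt T W st t la).K⁻¹ =
    diagonal (fun x => la x.1.1.2.1.support) * diagonal fun x => la x.1.1.2.1.support := by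
  have e : (lwt T W st t la).K = diagonal fun x => (la x.1.1.2.1.support ^ 2)⁻¹ := by
    ext x x'
    change T.K x.1.1.1 x'.1.1.1 * (shp W la).K x.1.1.2 x'.1.1.2 = _
    rw [k, shp_K, one_apply, diagonal_apply, diagonal_apply]
    by_cases a : x = x'
    · rw [if_pos a, if_pos (by rw [a]), if_pos (by rw [a]), one_mul]
    · rw [if_neg a]
      by_cases b : x.1.1.1 = x'.1.1.1
      · rw [if_neg (c := x.1.1.2 = x'.1.1.2) fun c => a (Subtype.ext (Subtype.ext (Prod.ext b c))),
          mul_zero]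
      · rw [if_neg b, zero_mul]
  rw [e]
  refine inv_eq_right_inv ?_
  rw [diagonal_mul_diagonal, diagonal_mul_diagonal, ← diagonal_one]
  exact congrArg diagonal (funext fun x => by
    rw [← sq, inv_mul_cancel₀ (pow_pos (la_pos hl x.1.1.2) 2).ne'])

theorem u_zero (h : T.Tri) : (lwt T W st t la).u 0 = 0 := funext fun x => by
  obtain ⟨w, rfl⟩ := (fw_bij h).2 x
  obtain ⟨i, hi⟩ : w.1.2.Nonempty := card_pos.1 ((h.lev_pos _).trans_eq w.2.2.2.symm)
  refine (u_fw h 0 w).trans ((sy_lin _ _ hi 0 0 (fun _ _ _ => rfl) (fun _ _ _ => rfl)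
    fun c B _ => ?_).trans (by simp))
  simp [sx]

end Swt

/-- **transport to the shape** -/
theorem swt : SWT := fun τ _ _ T st M t W la hs k hW hl => by
  have h := hs.cl.1
  have o : (shp W la).Ok := shp_ok hW hl
  have a : ∀ y w, la (fw la h w).1.1.2.1.support * (lwt T W st t la).u y (fw la h w) =
      sΦ T (fun c => st c < t) W la (y ∘ fw la h) w := fun y w => congrArg _ (u_fw h y w)
  refine ⟨fw la h, fw_bij h, fun _ => ⟨rfl, rfl⟩, fun y w => (a y w).symm, fun y => ?_, ?_⟩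
  · exact (Ir.wt_iso (Φ' := fun y x => la x.1.1.2.1.support * (lwt T W st t la).u y x)
      (Equiv.ofBijective _ (fw_bij h)) a y).symm.trans (wt_dg (K_inv k hl) y)
  · exact (Ir.irr_iso (Φ' := fun y x => la x.1.1.2.1.support * (lwt T W st t la).u y x)
      (Equiv.ofBijective _ (fw_bij h)) a).trans
      (irr_dg ((TS.lw_tri hs (hs.adm o) o).lt t) (K_inv k hl) (u_zero h))

end Crest.Agent.N49.Sy

end
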