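import Crest.Agent.N49.Sy.Defs
import Crest.Agent.N49.Tw.Api
import Crest.Agent.N49.Rm.Api

/-!
# Row 49 (helper73): the symbol tower is well formed
-/

set_option autoImplicit false
set_option linter.unusedSectionVars false

open Finset Matrix MvPolynomial

noncomputable section

namespace Crest.Agent.N49.Sy

open Tw Rm Gd

variable {τ L : Type} [Fintype τ] [DecidableEq τ] [Fintype L] [DecidableEq L]
  {T : TS Unit} {p : T.C → Prop} [DecidablePred p] {W : Finset (Finset τ)}
  {la : Finset τ → ℝ} {blk : τ → L}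

theorem sx_coe (y : SC T p W → ℝ) (w : SC T p W) : sx T p W y w.1.1 w.1.2 = y w := dif_pos w.2

theorem sx_ext {y y' : SC T p W → ℝ} {c : T.C} {B : Finset τ}
    (h : ∀ k : p c ∧ B ∈ W ∧ #B = T.lev c, y ⟨(c, B), k⟩ = y' ⟨(c, B), k⟩) :
    sx T p W y c B = sx T p W y' c B := by
  unfold sx
  split_ifs with k
  exacts [h k, rfl]

theorem sc_ne (h : T.Tri) (w : SC T p W) : w.1.2.Nonempty :=
  card_pos.1 (w.2.2.2 ▸ h.lev_pos _)

/-- symbols are data -/
theorem sF_dat (h : T.Tri) (P : MvPolynomial T.C ℝ) {B : Finset τ} (hB : Set.InjOn blk B) :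
    (symT T p W la blk).Dat (B.image blk) (B.image blk) (sF T p W P B) := by
  refine ⟨fun q q' e => sy_congr' _ P fun c B' s _ => sx_ext fun k =>
    e (.inl ⟨(c, B'), k⟩) (image_subset_image s) ((sc_ne h ⟨(c, B'), k⟩).image _), fun ℓ m => ?_⟩
  obtain ⟨i, hi, rfl⟩ := mem_image.1 m
  intro a b q q' e
  have r : ∀ y : SC T p W → ℝ, sP T p W P B y =
      sy T.lev P (fun c B' => if B' ⊆ B then sx T p W y c B' else 0) B := fun y =>
    sy_congr' _ P fun c B' s _ => (if_pos s).symm
  have k : ∀ B' ⊆ B, i ∉ B' → blk i ∉ B'.image blk := fun B' s n m => by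
    obtain ⟨j, hj, e⟩ := mem_image.1 m
    exact n (hB (s hj) hi e ▸ hj)
  simp only [sF, r]
  refine sy_lin _ P hi a b (fun c B' n => ?_) (fun c B' n => ?_) fun c B' m => ?_
  · split_ifs with s
    · exact sx_ext fun g => (TT.cmb_out (T := symT T p W la blk) (v := .inl ⟨(c, B'), g⟩)
        (k B' s n)).symm
    · rfl
  · split_ifs with s
    · exact sx_ext fun g => ((TT.cmb_out (T := symT T p W la blk) (v := .inl ⟨(c, B'), g⟩)
        (k B' s n)).trans (e (.inl ⟨(c, B'), g⟩) (k B' s n))).symm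
    · rfl
  · split_ifs with s
    · unfold sx
      split_ifs with g
      · exact TT.cmb_in (T := symT T p W la blk) (v := .inl ⟨(c, B'), g⟩) (mem_image_of_mem _ m)
      · simp
    · simp

/-- the linear part of the symbol -/
theorem sP_phi (y : SC T p W → ℝ) (F : T.C) (B : Finset τ) : sP T p W (T.Φ F) B y =
    ∑ F', T.A F F' * sx T p W y F' B + sP T p W (T.low F) B y := by
  have : T.Φ F = ∑ F', T.A F F' • X F' + T.low F := by
    simp only [TS.low, smul_eq_C_mul]; abel
  rw [this, sP, sy_add, sy_sum]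
  congr 1
  refine sum_congr rfl fun F' _ => ?_
  rw [sy_smul, sy_X]
  split_ifs with k
  · rfl
  · rw [sx, dif_neg fun g => k g.2.2]

theorem low_mem (h : T.Tri) (F : T.C) : T.low F ∈ supported ℝ {c | T.lev c < T.lev F} :=
  mem_supported.2 fun c k => by
    obtain ⟨m, h1, h2⟩ := (mem_vars_iff_mem_support _).1 k
    exact h.low_lt (mem_support_iff.1 h1) (Finsupp.mem_support_iff.1 h2)

/-- the errors on the word `B` determine the coordinates on `B` -/
theorem sym_inj (h : T.Tri) (hp : T.Low p) {y y' : SC T p W → ℝ} {B : Finset τ}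
    (e1 : ∀ w : SC T p W, w.1.2 ⊂ B → y w = y' w)
    (e2 : ∀ w : SC T p W, w.1.2 = B → sP T p W (T.Φ w.1.1) B y = sP T p W (T.Φ w.1.1) B y')
    (w : SC T p W) (hw : w.1.2 = B) : y w = y' w := by
  have hc := h.cut_low hp 0
  have z : (T.cut p 0).A *ᵥ (fun c : {c // p c} => sx T p W y c.1 B - sx T p W y' c.1 B) = 0 := by
    rw [h.A_cut]
    funext F
    have s : ∀ y : SC T p W → ℝ, ∑ c : {c // p c}, T.A F.1 c.1 * sx T p W y c.1 B =
        ∑ c, T.A F.1 c * sx T p W y c B := fun y => by
      rw [← Finset.sum_subtype (univ.filter p) (by simp) fun c => T.A F.1 c * sx T p W y c B]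
      exact Finset.sum_filter_of_ne fun c _ k => by
        by_contra n
        exact k (by rw [hp.A_eq F.2 n, zero_mul])
    change ∑ c : {c // p c}, T.A F.1 c.1 * _ = 0
    simp only [mul_sub, sum_sub_distrib, s]
    by_cases k : #B = T.lev F.1
    · have := e2 ⟨(F.1, B), F.2, hw ▸ w.2.2.1, k⟩ rfl
      rw [sP_phi, sP_phi, sP, sP, sy_congr _ (low_mem h F.1) (y' := sx T p W y')
        fun c hc B' b g => sx_ext fun g' => e1 _ (b.ssubset_of_ne fun e => by
          have : T.lev c < T.lev F.1 := hc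
          rw [← g, ← k] at this
          exact absurd (congrArg card e) this.ne)] at this
      simpa using sub_eq_zero.2 (add_right_cancel this)
    · have : ∀ y : SC T p W → ℝ, ∑ c, T.A F.1 c * sx T p W y c B = 0 := fun y =>
        sum_eq_zero fun c _ => by
          by_cases g : T.lev F.1 = T.lev c
          · rw [sx, dif_neg fun g' => k (g'.2.2.trans g.symm), mul_zero]
          · rw [T.blk_A _ _ g, zero_mul]
      rw [this, this, sub_zero]
  have := congrFun (Matrix.eq_zero_of_mulVec_eq_zero hc.det z) ⟨w.1.1, w.2.1⟩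
  simp only [← hw, sx_coe] at this
  exact sub_eq_zero.1 this

theorem sym_ok (h : T.Tri) (hp : T.Low p) (hi : ∀ B ∈ W, Set.InjOn blk B) (hl : ∀ B ∈ W, la B ≠ 0) :
    (symT T p W la blk).Ok := by
  refine ⟨fun w _ => (sF_dat h (T.Φ w.1.1) (hi _ w.2.2.1)).smul (la w.1.2), fun w _ e => ?_,
    fun S q q' e0 e1 e2 => ?_⟩
  · exact absurd e ((sc_ne h w).image blk).ne_empty
  · funext v
    rcases v with w | ℓ
    · by_cases k : w.1.2.image blk = S
      · refine sym_inj h hp (y := fun w => q (.inl w)) (y' := fun w => q' (.inl w))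
          (fun w' s => e1 w' fun e => ?_) (fun w' s => ?_) w rfl
        · have h1 := card_image_of_injOn (hi _ w.2.2.1)
          have h2 : #(w'.1.2.image blk) ≤ #w'.1.2 := card_image_le
          have h3 := card_lt_card s
          have h4 : w'.1.2.image blk = S := e
          rw [h4, ← k] at h2
          omega
        · have := e2 w' (show w'.1.2.image blk = S by rw [s, k])
          rw [← s]
          exact mul_left_cancel₀ (hl _ w'.2.2.1) this
      · exact e1 w k
    · exact e0 ℓ

theorem sym_hm : Hm (symT T p W la blk) := fun q q' e => by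
  simp only [symT, e]

theorem stg_low {st : T.C → ℕ} {M : ℕ} (h : T.Stg st M) (t : ℕ) : T.Low fun c => st c < t := by
  have := h.tri.low_lev t
  rwa [TS.stg_lev'] at this

theorem sok : SOK := fun _ _ _ _ _ _ _ _ _ t _ _ _ h _ hi hl =>
  ⟨sym_ok h.cl.1 (stg_low h t) hi fun B m => (hl B m).ne', sym_hm,
    fun P B m => sF_dat h.cl.1 P (hi B m)⟩

end Crest.Agent.N49.Sy

end
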