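import Crest.Agent.N49.Sy.Defs
import Crest.Agent.N49.Gd.Tv
import Crest.Agent.N49.Gd.I1
import Crest.Agent.N49.Tw.Base

/-!
# Row 49 (helper89): the clone system of a symbol tower is a symbol system
-/

set_option autoImplicit false
set_option linter.unusedSectionVars false

open Finset Matrix MvPolynomial

noncomputable section

namespace Crest.Agent.N49.Sy

open Tw Rm Gd

variable {τ L L' : Type} [Fintype τ] [DecidableEq τ] [Fintype L] [DecidableEq L] [Fintype L']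
  [DecidableEq L'] {W : Finset (Finset τ)} {blk : τ → L} {o : L' → Option L} {D : Finset (τ × L')}

theorem mem_clW : D ∈ clW W blk o ↔ D.image Prod.fst ∈ W ∧ #(D.image Prod.fst) = #D ∧
    ∀ x ∈ D, o x.2 = some (blk x.1) := by simp [clW]

theorem dw_clW (hW : Dw W) : Dw (clW W blk o) := fun D h A a => by
  obtain ⟨h1, h2, h3⟩ := mem_clW.1 h
  exact mem_clW.2 ⟨hW _ h1 _ (image_subset_image a),
    card_image_of_injOn ((card_image_iff.1 h2).mono a), fun x m => h3 x (a m)⟩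

theorem card_clW {M : ℕ} (h : ∀ B ∈ W, #B ≤ M) :
    #(clW W blk o) ≤ #W * (Fintype.card L' + 1) ^ M := by
  rw [mul_comm]
  refine card_le_mul_card_image_of_maps_to (f := image Prod.fst) (fun D m => (mem_clW.1 m).1) _
    fun B b => (card_le_card (t := (univ : Finset (B → L')).image fun ξ =>
      univ.image fun a : B => (a.1, ξ a)) fun D m => ?_).trans (card_image_le.trans ?_)
  · obtain ⟨m', rfl⟩ := mem_filter.1 m
    choose ξ k using fun a : D.image Prod.fst => (show ∃ x, (a.1, x) ∈ D by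
      obtain ⟨x, k, e⟩ := mem_image.1 a.2
      exact ⟨x.2, e ▸ k⟩)
    refine mem_image.2 ⟨ξ, mem_univ _, Subset.antisymm (image_subset_iff.2 fun a _ => k a)
      fun x b => mem_image.2 ⟨⟨x.1, mem_image_of_mem _ b⟩, mem_univ _, ?_⟩⟩
    exact card_image_iff.1 (mem_clW.1 m').2.1 (k _) b rfl
  · rw [card_univ, Fintype.card_fun, Fintype.card_coe]
    exact (Nat.pow_le_pow_left (Nat.le_succ _) _).trans (Nat.pow_le_pow_right (by omega) (h B b))

theorem clW_snd (hb : ∀ B ∈ W, Set.InjOn blk B) {D' : Finset (τ × L')} (h : D ∈ clW W blk o)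
    (h' : D' ∈ clW W blk o) (e : D'.image Prod.fst ⊆ D.image Prod.fst) {x x' : τ × L'} (a : x ∈ D)
    (a' : x' ∈ D') (k : x.2 = x'.2) : x = x' :=
  Prod.ext (hb _ (mem_clW.1 h).1 (mem_image_of_mem _ a) (e (mem_image_of_mem _ a'))
    (Option.some.inj (((mem_clW.1 h).2.2 x a).symm.trans (k ▸ (mem_clW.1 h').2.2 x' a')))) k

theorem clW_tv (hb : ∀ B ∈ W, Set.InjOn blk B) (h : D ∈ clW W blk o) (n : 0 < #D) :
    Tv o ((D.image Prod.fst).image blk) (D.image Prod.snd) := by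
  refine ⟨((card_pos.1 n).image _).image _, ?_, ?_⟩
  · simp only [image_image]
    exact image_congr (mem_clW.1 h).2.2
  · rw [card_image_of_injOn (hb _ (mem_clW.1 h).1), (mem_clW.1 h).2.1,
      card_image_of_injOn fun _ a _ a' => clW_snd hb h h le_rfl a a']

theorem sun : SUN := by
  intro τ L L' _ _ _ _ _ _ T p _ W la blk hT hW hb o lam
  refine ⟨dw_clW hW, fun M => card_clW, (i1 _ _ _ _ (fun w : SC T p (clW W blk o) =>
    (⟨(⟨(w.1.1, w.1.2.image Prod.fst), w.2.1, (mem_clW.1 w.2.2.1).1,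
      (mem_clW.1 w.2.2.1).2.1.trans w.2.2.2⟩, w.1.2.image Prod.snd),
      clW_tv hb w.2.2.1 (w.2.2.2 ▸ hT.lev_pos _)⟩ : UC (symT T p W la blk) o)) ⟨?_, ?_⟩ ?_).1.symm⟩
  · rintro ⟨⟨c, D⟩, _, h, _⟩ ⟨⟨c', D'⟩, _, h', _⟩ e
    obtain ⟨e1, e2⟩ := Prod.mk.inj (congrArg Subtype.val e)
    obtain ⟨rfl, e1⟩ := Prod.mk.inj (congrArg Subtype.val e1)
    refine Subtype.ext (Prod.ext rfl (Subset.antisymm (fun x a => ?_) fun x a => ?_))
    · obtain ⟨x', a', k⟩ := mem_image.1 (e2.le (mem_image_of_mem _ a))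
      exact clW_snd hb h' h e1.le a' a k ▸ a'
    · obtain ⟨x', a', k⟩ := mem_image.1 (e2.ge (mem_image_of_mem _ a))
      exact clW_snd hb h h' e1.ge a' a k ▸ a'
  · rintro ⟨⟨⟨⟨c, B⟩, h1, h2, h3⟩, X⟩, h⟩
    obtain ⟨D, hD⟩ : ∃ D, D = (B ×ˢ X).filter fun x => o x.2 = some (blk x.1) := ⟨_, rfl⟩
    have m : ∀ {x}, x ∈ D ↔ (x.1 ∈ B ∧ x.2 ∈ X) ∧ o x.2 = some (blk x.1) := by simp [hD]
    have e1 : D.image Prod.fst = B :=
      Subset.antisymm (image_subset_iff.2 fun x a => (m.1 a).1.1) fun a b => by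
        obtain ⟨x, k, e⟩ := h.ex' (mem_image_of_mem blk b)
        exact mem_image.2 ⟨(a, x), m.2 ⟨⟨b, k⟩, e⟩, rfl⟩
    have e2 : D.image Prod.snd = X :=
      Subset.antisymm (image_subset_iff.2 fun x a => (m.1 a).1.2) fun x b => by
        obtain ⟨l, k, e⟩ := h.ex b
        obtain ⟨a, k', rfl⟩ := mem_image.1 k
        exact mem_image.2 ⟨(a, x), m.2 ⟨⟨k', b⟩, e⟩, rfl⟩
    have e3 : #(D.image Prod.fst) = #D := card_image_of_injOn fun x a x' a' e =>
      Prod.ext e (h.inj (m.1 a).1.2 (m.1 a').1.2 ((m.1 a).2.trans (e ▸ (m.1 a').2.symm)))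
    exact ⟨⟨(c, D), h1, mem_clW.2 ⟨e1 ▸ h2, e3, fun x a => (m.1 a).2⟩, e3.symm.trans (e1 ▸ h3)⟩,
      Subtype.ext (Prod.ext (Subtype.ext (Prod.ext rfl e1)) e2)⟩
  rintro y ⟨⟨c, D⟩, h1, h2, h3⟩
  have n : 0 < #D := h3 ▸ hT.lev_pos c
  obtain ⟨x0, -⟩ := card_pos.1 n
  have : Nonempty L' := ⟨x0.2⟩
  obtain ⟨k1, k2, k3⟩ := mem_clW (D := D).1 h2
  choose! ξ k using fun a (b : a ∈ D.image Prod.fst) => (show ∃ x, (a, x) ∈ D by
    obtain ⟨x, k, e⟩ := mem_image.1 b
    exact ⟨x.2, e ▸ k⟩)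
  let g : τ ↪ τ × L' := ⟨fun a => (a, ξ a), fun _ _ e => congrArg Prod.fst e⟩
  have s : ∀ B ⊆ D.image Prod.fst, B.map g ⊆ D := fun B b x a => by
    obtain ⟨a', m, rfl⟩ := mem_map.1 a
    exact k a' (b m)
  have e : (D.image Prod.fst).map g = D :=
    eq_of_subset_of_card_le (s _ le_rfl) (by rw [card_map, k2])
  simp only [sΦ, sP, Gd.nar, uty, U, symT]
  rw [prod_image fun _ a _ a' => clW_snd hb h2 h2 le_rfl a a', mul_left_comm, mul_assoc]
  congr 2
  conv_lhs => rw [← e, ← sy_map]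
  refine sy_congr' _ _ fun c' B b m => ?_
  by_cases a : p c'
  · have f : (B.map g).image Prod.fst = B := by
      rw [map_eq_image, image_image]
      exact image_id
    have w := dw_clW hW D h2 _ (s B b)
    have t := clW_tv hb w (by rw [card_map, m]; exact hT.lev_pos c')
    have r := ((clW_tv hb h2 n).sub t (image_subset_image (s B b))).2
    rw [f] at t r
    rw [← r] at t
    rw [sx, sx, dif_pos ⟨a, w, (card_map g).trans m⟩, dif_pos ⟨a, hW _ k1 _ b, m⟩]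
    refine Eq.trans ?_ (pull_pos (T := symT T p W la blk) (c := ⟨(c', B), a, hW _ k1 _ b, m⟩)
      (B := D.image Prod.snd) (y := y) t).symm
    exact congrArg y (Subtype.ext (Prod.ext (Subtype.ext (Prod.ext rfl f)) r.symm))
  · simp [sx, a]

end Crest.Agent.N49.Sy

end
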