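import Crest.Agent.N49.Sy.Defs
import Crest.Agent.N49.Tw.ConM
/-! Row 49 (helper68): the size of the shape of a symbol tower. -/
set_option autoImplicit false
set_option linter.unusedSectionVars false
open Finset Matrix
noncomputable section
namespace Crest.Agent.N49.Sy
open Tw Po

section
variable {τ : Type} [Fintype τ] [DecidableEq τ] {W : Finset (Finset τ)} {la : Finset τ → ℝ}

theorem ind_of_le {ν : τ →₀ ℕ} {B : Finset τ} (h : ν ≤ ind B) : ν.support ⊆ B ∧ ind ν.support = ν := by
  have k : ∀ i, ν i ≤ if i ∈ B then 1 else 0 := h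
  refine ⟨fun i a => by_contra fun n => ?_, Finsupp.ext fun i => ?_⟩
  · exact Finsupp.mem_support_iff.1 a (by simpa [n] using k i)
  · have := k i
    rw [ind_apply]
    split_ifs at this ⊢ with a b b <;> simp only [Finsupp.mem_support_iff] at a <;> omega

theorem Dw.dn (h : Dw W) : Dn (W.image ind) := fun _ a ν b => by
  obtain ⟨B, k, rfl⟩ := mem_image.1 a
  exact mem_image.2 ⟨_, h B k _ (ind_of_le b).1, (ind_of_le b).2⟩

theorem shp_mem (w : (shp W la).W) : w.1.support ∈ W := by
  obtain ⟨B, k, e⟩ := mem_image.1 (mem_of_mem_erase w.2)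
  exact e ▸ k

theorem shp_K : (shp W la).K = diagonal fun w : (shp W la).W => (la w.1.support ^ 2)⁻¹ := by
  ext w w'
  change (if w.1 = w'.1 then _ else 0) = if w = w' then _ else 0
  exact if_congr Subtype.ext_iff.symm rfl rfl
end

theorem ssz : SSZ := fun τ _ _ W la n a hW h hn _ =>
  Sh.mono_sz' hW.dn (shp_K (W := W) (la := la) ▸ PosDef.diagonal fun w =>
    inv_pos.2 (pow_pos (h _ (shp_mem w)).1 2)) (Sh.dk_blk _)
    (card_erase_le.trans (card_image_le.trans hn)) fun x : (shp W la).W → ℝ => by
      change _ ≤ qf (shp W la).K x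
      rw [shp_K, qf, mul_sum, dotProduct]
      refine sum_le_sum fun (w : (shp W la).W) _ => ?_
      rw [mulVec_diagonal]
      obtain ⟨h1, h2⟩ := h _ (shp_mem w)
      have := (le_div_iff₀ (pow_pos h1 2)).2 h2
      rw [one_div] at this
      nlinarith [sq_nonneg (x w)]
end Crest.Agent.N49.Sy
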