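import Crest.Agent.N49.Sy.Alg
import Crest.Agent.N49.Gd.Defs
import Crest.Agent.N49.Tw.Tw
import Crest.Agent.N49.Rf.Pid
import Crest.Agent.N49.Rm.St
import Crest.Agent.N49.Rm.Pr

/-!
# Row 49 (helper2): the symbol tower of a point tower as a typed tower (FROZEN)
-/

set_option autoImplicit false
set_option linter.unusedSectionVars false

open Finset Matrix MvPolynomial

noncomputable section

namespace Crest.Agent.N49.Sy

open Tw Rm Gd

variable {τ L L' : Type} [Fintype τ] [DecidableEq τ] [Fintype L] [DecidableEq L] [Fintype L']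
  [DecidableEq L'] (T : TS Unit) (p : T.C → Prop) [DecidablePred p] (W : Finset (Finset τ))

/-- symbol coordinates: a family in `p` and a word of its level -/
abbrev SC : Type := {w : T.C × Finset τ // p w.1 ∧ w.2 ∈ W ∧ #w.2 = T.lev w.1}

/-- extension by zero -/
def sx (y : SC T p W → ℝ) (c : T.C) (B : Finset τ) : ℝ :=
  if h : p c ∧ B ∈ W ∧ #B = T.lev c then y ⟨(c, B), h⟩ else 0

/-- the symbol of the polynomial `P` on the word `B` -/
def sP (P : MvPolynomial T.C ℝ) (B : Finset τ) (y : SC T p W → ℝ) : ℝ :=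
  sy T.lev P (sx T p W y) B

/-- the errors, the word `B` has the width `1 / la B` -/
def sΦ (la : Finset τ → ℝ) (y : SC T p W → ℝ) (w : SC T p W) : ℝ :=
  la w.1.2 * sP T p W (T.Φ w.1.1) w.1.2 y

/-- **the symbol tower**; the letters are grouped into the blocks `blk` -/
def symT (la : Finset τ → ℝ) (blk : τ → L) : TT L (SC T p W) where
  ty w := w.1.2.image blk
  Φ q := sΦ T p W la fun w => q (.inl w)

/-- the symbol as a form on the symbol tower -/
def sF (P : MvPolynomial T.C ℝ) (B : Finset τ) : Fm L (SC T p W) :=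
  fun q => sP T p W P B fun w => q (.inl w)

/-- down-closed families of words -/
def Dw : Prop := ∀ B ∈ W, ∀ A ⊆ B, A ∈ W

/-- the shape -/
def shp (la : Finset τ → ℝ) : Sh Unit τ :=
  Sh.mono (fun _ => ()) (W.image ind) 0 (dk fun μ => (la μ.support ^ 2)⁻¹)

/-- the law of the stages `< t` on the shape -/
abbrev lwt (st : T.C → ℕ) (t : ℕ) (la : Finset τ → ℝ) : TS Unit :=
  (T.lw (shp W la) st (T.tw0 (shp W la))).lt t

/-- the words of the clone system -/
def clW (blk : τ → L) (o : L' → Option L) : Finset (Finset (τ × L')) :=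
  univ.filter fun D => D.image Prod.fst ∈ W ∧ #(D.image Prod.fst) = #D ∧
    ∀ x ∈ D, o x.2 = some (blk x.1)

variable {T}

/-- the phase polynomial relative to the stages -/
def php (st : T.C → ℕ) (k : T.C → ℤ) : MvPolynomial T.C ℝ := (T.top.stg st).thp k

/-- the top symbol of `k` is trivial on the stages `< t` -/
def JBs (st : T.C → ℕ) (t : ℕ) (k : T.C → ℤ) (q : ℕ) (r : ℝ) : Prop :=
  (T.top.cut (fun c => st c < t) 0).Triv q r
    (aeval (glue (fun c : T.C => st c < t) X fun _ => (0 : MvPolynomial _ ℝ)) (php st k))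

/-- the symbol tower is well formed, symbols are data -/
def SOK : Prop := ∀ (τ L : Type) [Fintype τ] [DecidableEq τ] [Fintype L] [DecidableEq L]
  (T : TS Unit) (st : T.C → ℕ) (M t : ℕ) (W : Finset (Finset τ)) (la : Finset τ → ℝ) (blk : τ → L),
  T.Stg st M → Dw W → (∀ B ∈ W, Set.InjOn blk B) → (∀ B ∈ W, 0 < la B) →
  (symT T (fun c => st c < t) W la blk).Ok ∧ Hm (symT T (fun c => st c < t) W la blk) ∧
    ∀ (P : MvPolynomial T.C ℝ), ∀ B ∈ W, (symT T (fun c => st c < t) W la blk).Dat (B.image blk)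
      (B.image blk) (sF T (fun c => st c < t) W P B)

/-- the clone system of a symbol tower is a symbol system -/
def SUN : Prop := ∀ (τ L L' : Type) [Fintype τ] [DecidableEq τ] [Fintype L] [DecidableEq L]
  [Fintype L'] [DecidableEq L'] (T : TS Unit) (p : T.C → Prop) [DecidablePred p]
  (W : Finset (Finset τ)) (la : Finset τ → ℝ) (blk : τ → L), T.Tri → Dw W →
  (∀ B ∈ W, Set.InjOn blk B) → ∀ (o : L' → Option L) (lam : L' → ℝ), Dw (clW W blk o) ∧
  (∀ M, (∀ B ∈ W, #B ≤ M) → #(clW W blk o) ≤ #W * (Fintype.card L' + 1) ^ M) ∧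
  ir (symT T p W la blk) o lam = Ir.irr (sΦ T p (clW W blk o)
    fun D => la (D.image Prod.fst) * ∏ x ∈ D, lam x.2)

/-- transport to the shape -/
def SWT : Prop := ∀ (τ : Type) [Fintype τ] [DecidableEq τ] (T : TS Unit) (st : T.C → ℕ) (M t : ℕ)
  (W : Finset (Finset τ)) (la : Finset τ → ℝ), T.Stg st M → T.K = 1 → Dw W → (∀ B ∈ W, 0 < la B) →
  ∃ f : SC T (fun c => st c < t) W → (lwt T W st t la).C, Function.Bijective f ∧
    (∀ w, (f w).1.1.1 = w.1.1 ∧ (f w).1.1.2.1 = ind w.1.2) ∧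
    (∀ y w, sΦ T (fun c => st c < t) W la (y ∘ f) w = la w.1.2 * (lwt T W st t la).u y (f w)) ∧
    (∀ y, Ir.wt (sΦ T (fun c => st c < t) W la) (y ∘ f) = (lwt T W st t la).wt y) ∧
    Ir.irr (sΦ T (fun c => st c < t) W la) = (lwt T W st t la).Z / (lwt T W st t la).Zc

/-- the size of the shape -/
def SSZ : Prop := ∀ (τ : Type) [Fintype τ] [DecidableEq τ] (W : Finset (Finset τ))
  (la : Finset τ → ℝ) (n : ℕ) (a : ℝ), Dw W → (∀ B ∈ W, 0 < la B ∧ a * la B ^ 2 ≤ 1) → #W ≤ n →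
  1 ≤ n → (shp W la).Sz n a

/-- **semantic regularity gives the invariant** -/
def SINV : Prop := ∀ (τ L : Type) [Fintype τ] [DecidableEq τ] [Fintype L] [DecidableEq L]
  (T : TS Unit) (st : T.C → ℕ) (M t : ℕ) (W : Finset (Finset τ)) (la : Finset τ → ℝ) (blk : τ → L)
  (N n n' : ℕ) (a η u : ℝ), T.Stg st M → T.K = 1 → Dw W → (∀ B ∈ W, Set.InjOn blk B) →
  (∀ B ∈ W, #B ≤ M ∧ 0 < la B ∧ a * (la B * u ^ M) ^ 2 ≤ 1) → 1 ≤ u → 0 ≤ a →
  (#W + 1) * (N + 1) ^ M ≤ n → T.Sem st t n a η →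
  Inv (symT T (fun c => st c < t) W la blk) N n' u η

/-- the symbol bias is the bias of a datum on the symbol tower of the cube -/
def SBI : Prop := ∀ (T : TS Unit) (st : T.C → ℕ) (M t l : ℕ) (κ : ℕ → ℝ) (k : T.C → ℤ),
  T.Stg st M → T.K = 1 → (∀ j, 0 < κ j) → (∀ F, k F ≠ 0 → st F = t ∧ T.lev F = l) →
  T.sbS st t (fun _ : Fin l => ()) κ k =
    ‖∑' y, ((symT T (fun c => st c < t) univ (fun B => (√(κ #B))⁻¹) (id : Fin l → Fin l)).wt y : ℂ) *
      Po.ee (sF T (fun c => st c < t) univ (php st k) univ (TT.cf (L := Fin l) y))‖ /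
      (symT T (fun c => st c < t) univ (fun B => (√(κ #B))⁻¹) (id : Fin l → Fin l)).Z

/-- a biased datum is trivial on many fibres -/
def START : Prop := ∀ (L C : Type) [Fintype L] [DecidableEq L] [Fintype C] [DecidableEq C]
  (T : TT L C) (F : Fm L C) (i : L) (n : ℕ), T.Ok → Hm T → T.Dat univ {i} F →
  (∀ p p', (∀ c, p (.inl c) = p' (.inl c)) → F p = F p') → Fintype.card C ≤ 2 ^ n →
  (1 / 2 : ℝ) ^ n ≤ ‖∑' y, (T.wt y : ℂ) * Po.ee (F (TT.cf y))‖ / T.Z →
  (1 / 2 : ℝ) ^ (n + 1) ≤ T.pr {y | T.Rel univ {i} y 1 (2 ^ (2 * n + 4)) F}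

/-- a trivial symbol gives a polynomial identity on the diagonal -/
def END : Prop := ∀ (T : TS Unit) (st : T.C → ℕ) (M t l n q : ℕ) (la : Finset (Fin l) → ℝ)
  (P : MvPolynomial T.C ℝ) (y : SC T (fun c => st c < t) (univ : Finset (Finset (Fin l))) → ℤ),
  T.Stg st M → 1 ≤ l → l ≤ M → (∀ B, 0 < la B ∧ la B ≤ 2 ^ n) →
  (∀ B B' : Finset (Fin l), #B = #B' → la B = la B') → Fintype.card T.C ≤ 2 ^ n → 1 ≤ q →
  P.IsWeightedHomogeneous T.lev l →
  (symT T (fun c => st c < t) univ la id).Rel univ univ y q (2 ^ n)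
    (sF T (fun c => st c < t) univ P univ) →
  (T.top.cut (fun c => st c < t) 0).Triv (q * l.factorial) (2 ^ ((n + M + 1) * (M + 1) ^ 3))
    (aeval (glue (fun c : T.C => st c < t) X fun _ => (0 : MvPolynomial _ ℝ)) P)

/-- **B for towers**: a biased symbol is trivial -/
def JBS (M : ℕ) : Prop := ∃ K : ℕ, ∀ (T : TS Unit) (st : T.C → ℕ) (t l n : ℕ) (κ : ℕ → ℝ)
  (b : ℝ) (k : T.C → ℤ), T.Stg st M → T.K = 1 → 2 ≤ n → 1 ≤ l → l ≤ M →
  Fintype.card T.C ≤ 2 ^ n → (1 / 2) ^ n ≤ b → (∀ j, b ≤ κ j) →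
  (∀ F, k F ≠ 0 → st F = t ∧ T.lev F = l) →
  T.Sem st t (n ^ K) (b / 2 ^ n ^ K) (1 / 2 ^ n ^ K) →
  (1 / 2) ^ n ≤ T.sbS st t (fun _ : Fin l => ()) κ k →
  ∃ q : ℕ, 1 ≤ q ∧ q ≤ 2 ^ n ^ K ∧ JBs st t k q (2 ^ n ^ K)

end Crest.Agent.N49.Sy

end
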