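import Crest.Agent.N49.Sy.Defs
import Crest.Agent.N49.Jb.Pol

/-!
# Row 49 (helper98): a trivial symbol gives a polynomial identity on the diagonal
-/

set_option autoImplicit false
set_option linter.unusedSectionVars false

open Finset MvPolynomial

noncomputable section

namespace Crest.Agent.N49.Sy

open Tw Rm Gd

theorem coeff_diag {ι : Type} (lev : ι → ℕ) (P : MvPolynomial ι ℝ) (Y : ι → ℝ) (d : ℕ) :
    Polynomial.coeff (aeval (fun c => Polynomial.C (Y c) * Polynomial.X ^ lev c) P) d =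
      eval Y (weightedHomogeneousComponent lev d P) := by
  classical
  induction P using MvPolynomial.induction_on' with
  | add p q hp hq => rw [map_add, Polynomial.coeff_add, hp, hq, map_add, map_add]
  | monomial m a =>
    have e : (aeval (fun c => Polynomial.C (Y c) * Polynomial.X ^ lev c) (monomial m a) :
        Polynomial ℝ) = Polynomial.C (eval Y (monomial m a)) *
          Polynomial.X ^ Finsupp.weight lev m := by
      rw [aeval_monomial, eval_monomial, Polynomial.algebraMap_eq, map_mul, mul_assoc,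
        Finsupp.weight_apply]
      congr 1
      simp only [Finsupp.prod, Finsupp.sum, mul_pow, prod_mul_distrib, map_prod, map_pow, ← pow_mul,
        prod_pow_eq_pow_sum, smul_eq_mul, mul_comm]
    rw [e, Polynomial.coeff_C_mul, Polynomial.coeff_X_pow,
      weightedHomogeneousComponent_of_mem (isWeightedHomogeneous_monomial lev m a rfl)]
    split_ifs <;> simp

variable {τ : Type} [Fintype τ] [DecidableEq τ] {T : TS Unit} {p : T.C → Prop} [DecidablePred p]

/-- symbols on the diagonal -/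
theorem sP_diag (P : MvPolynomial T.C ℝ) (B : Finset τ) (Y : {c // p c} → ℝ) :
    sP T p univ P B (fun w => (#w.1.2).factorial * Y ⟨w.1.1, w.2.1⟩) = (#B).factorial *
      eval Y (aeval (glue p X fun _ => (0 : MvPolynomial _ ℝ))
        (weightedHomogeneousComponent T.lev #B P)) := by
  rw [sP, sy_congr' T.lev P (y' := fun c B => (#B).factorial * glue p Y 0 c) fun c A _ e => by
    by_cases h : p c <;> simp [sx, glue, h, e], sy_diag, coeff_diag, ← coe_aeval_eq_eval,
    ← coe_aeval_eq_eval]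
  congr 1
  rw [RingHom.coe_coe, RingHom.coe_coe, ← AlgHom.comp_apply, comp_aeval]
  refine congrArg (fun f => aeval f _) (funext fun c => ?_)
  by_cases h : p c <;> simp [glue, h]

theorem end_num {l M n c : ℕ} (hl : l ≤ M) (hc : c ≤ 2 ^ n * 2 ^ l) :
    ((c : ℝ) * (2 ^ n * M.factorial)) ^ l * 2 ^ n ≤ 2 ^ ((n + M + 1) * (M + 1) ^ 3) := by
  have h1 : M.factorial ≤ 2 ^ (M * M) := Nat.factorial_le_pow M |>.trans (by
    rw [pow_mul]; exact Nat.pow_le_pow_left Nat.lt_two_pow_self.le M)
  have h2 : c * (2 ^ n * M.factorial) ≤ 2 ^ (n + M + (n + M * M)) := by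
    rw [pow_add, pow_add, pow_add]
    exact Nat.mul_le_mul (hc.trans (Nat.mul_le_mul_left _ (Nat.pow_le_pow_right two_pos hl)))
      (Nat.mul_le_mul_left _ h1)
  have h3 : (c * (2 ^ n * M.factorial)) ^ l * 2 ^ n ≤ 2 ^ ((n + M + 1) * (M + 1) ^ 3) := by
    refine (Nat.mul_le_mul_right _ (Nat.pow_le_pow_left h2 l)).trans ?_
    rw [← pow_mul, ← pow_add]
    refine Nat.pow_le_pow_right two_pos ((Nat.add_le_add_right (Nat.mul_le_mul_left _ hl) n).trans ?_)
    ring_nf
    omega
  exact_mod_cast h3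

theorem triv_of {ι : Type} (Φ : ι → MvPolynomial ι ℝ) {P g : MvPolynomial ι ℝ}
    (I : MvPolynomial ι ℤ) {q f : ℕ} (hf : 0 < f) {r : ℝ} (hg : Jb.nm g ≤ r)
    (h : ∀ Y : ι → ℝ, f * eval Y P = (q : ℝ)⁻¹ * eval Y (map (Int.castRingHom ℝ) I) +
      eval (fun c => eval Y (Φ c)) g) : ∃ (I : MvPolynomial ι ℤ) (g : MvPolynomial ι ℝ),
    P = ((q * f : ℕ) : ℝ)⁻¹ • map (Int.castRingHom ℝ) I + aeval Φ g ∧
      ∑ m ∈ g.support, coeff m g ^ 2 ≤ r ^ 2 := by
  have l0 : (1 : ℝ) ≤ f := by exact_mod_cast hf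
  refine ⟨I, MvPolynomial.C (f : ℝ)⁻¹ * g, MvPolynomial.funext fun Y => ?_,
    (Jb.sq_le_nm _).trans (pow_le_pow_left₀ (Jb.nm_nonneg _) ?_ 2)⟩
  · have e : ∀ Q : MvPolynomial ι ℝ, eval Y (aeval Φ Q) = eval (fun c => eval Y (Φ c)) Q :=
      fun Q => by
        rw [← coe_aeval_eq_eval, ← coe_aeval_eq_eval, RingHom.coe_coe, RingHom.coe_coe,
          ← AlgHom.comp_apply, comp_aeval]
    rw [(eq_inv_mul_iff_mul_eq₀ (by positivity)).2 (h Y), map_add, smul_eval, e, map_mul, eval_C,
      Nat.cast_mul, mul_inv]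
    ring
  · rw [Jb.nm_C_mul, abs_of_nonneg (by positivity)]
    exact (mul_le_of_le_one_left (Jb.nm_nonneg _) (inv_le_one_of_one_le₀ l0)).trans hg

theorem end_of (hs : SOK) : END := by
  intro T st M t l n q la P y h l1 lM hla _ hc hq hP hR
  obtain ⟨o, -, d⟩ := hs (Fin l) (Fin l) T st M t univ la id h (fun _ _ _ _ => mem_univ _)
    (fun _ _ => Function.injective_id.injOn) fun B _ => (hla B).1
  have d1 := d P univ (mem_univ _)
  rw [image_id] at d1
  have f1 : (1 : ℝ) ≤ M.factorial := by exact_mod_cast M.factorial_pos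
  have p1 : (1 : ℝ) ≤ 2 ^ n := one_le_pow₀ one_le_two
  obtain ⟨I, g, hg, e⟩ := Jb.rel_poly o (fun w => by
      refine (card_pos.1 ?_).image _
      rw [w.2.2.2]
      exact Nat.pos_of_ne_zero fun e => h.cl.1.ne _ ((Finsupp.degree_eq_zero_iff _).1 e))
    d1 hR (fun w => (⟨w.1.1, w.2.1⟩ : {c // st c < t})) (fun w => (#w.1.2).factorial)
    (fun w => la w.1.2 * (#w.1.2).factorial) (α := 2 ^ n * M.factorial)
    (one_le_mul_of_one_le_of_one_le p1 f1) fun w => by
      rw [abs_of_nonneg (mul_nonneg (hla _).1.le (Nat.cast_nonneg _))]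
      refine mul_le_mul (hla _).2 ?_ (Nat.cast_nonneg _) (by positivity)
      exact_mod_cast Nat.factorial_le (w.2.2.2.trans_le (h.le _).2)
  refine triv_of (ι := {c // st c < t}) _ I l.factorial_pos (hg.trans ?_) fun Y => ?_
  · rw [Fintype.card_fin]
    refine end_num lM ((Fintype.card_subtype_le _).trans ?_)
    rw [Fintype.card_prod, Fintype.card_finset, Fintype.card_fin]
    exact Nat.mul_le_mul_right _ hc
  · have e1 := e Y (fun c => eval Y ((T.top.cut (fun c => st c < t) 0).Φ c))
      (Sum.elim (fun w => (#w.1.2).factorial * Y ⟨w.1.1, w.2.1⟩) 0) (fun _ => rfl)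
      (fun w => by simp) fun w => by
        refine (congrArg (la w.1.2 * ·) (sP_diag (T.Φ w.1.1) w.1.2 Y)).trans ?_
        rw [mul_assoc]
        refine congrArg (fun z => la w.1.2 * (((#w.1.2).factorial : ℝ) * eval Y z)) ?_
        refine congrArg₂ (fun f d => aeval f (weightedHomogeneousComponent T.lev d (T.Φ w.1.1)))
          (congrArg (glue (fun c : T.C => st c < t) X) (funext fun c => ?_)) w.2.2.2
        exact (C_0.symm.trans (congrArg MvPolynomial.C Int.cast_zero.symm))
    have e2 := (sP_diag (p := fun c => st c < t) P (univ : Finset (Fin l)) Y).symm.trans e1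
    rwa [card_univ, Fintype.card_fin, weightedHomogeneousComponent_of_mem hP, if_pos rfl] at e2

end Crest.Agent.N49.Sy

end
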