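import Crest.Agent.N49.Sy.Defs
import Crest.Agent.N49.Tw.ConH
import Crest.Agent.N49.Tw.Cbr

/-!
# Row 49 (helper88): the symbol bias as the bias of a datum on the symbol tower
-/

set_option autoImplicit false
set_option linter.unusedSectionVars false

open Finset Matrix MvPolynomial

noncomputable section

namespace Crest.Agent.N49.Sy

open Tw Rm Po

namespace Bi

variable {τ : Type} [Fintype τ] [DecidableEq τ] {T : TS Unit} {W : Finset (Finset τ)}
  {la : Finset τ → ℝ}

theorem deg_ind (B : Finset τ) : (ind B).degree = #B := by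
  rw [Finsupp.degree_eq_sum]; simp [ind_apply]

theorem shp_sym {l : ℕ} {κ : ℕ → ℝ} (hκ : ∀ j, 0 < κ j) :
    Sh.sym (fun _ : Fin l => ()) κ = shp univ fun B => (√(κ #B))⁻¹ := by
  have e : sqf (Fin l) l = univ.image ind := by
    ext μ
    simp only [mem_sqf, mem_image, mem_univ, true_and]
    refine ⟨fun h => ⟨μ.support, Finsupp.ext fun i => ?_⟩, ?_⟩
    · have := h.2 i
      rw [ind_apply]
      split_ifs with c
      · have := Finsupp.mem_support_iff.1 c; omega
      · exact (Finsupp.notMem_support_iff.1 c).symm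
    · rintro ⟨B, rfl⟩
      refine ⟨(deg_ind B).trans_le (by simpa using card_le_univ B), fun i => ?_⟩
      rw [ind_apply]; split_ifs <;> omega
  unfold Sh.sym shp
  rw [e]
  unfold Sh.mono
  congr 2
  funext w w'
  obtain ⟨B, -, hB⟩ := mem_image.1 (mem_of_mem_erase w.2)
  refine if_congr Iff.rfl ?_ rfl
  beta_reduce
  rw [← hB, deg_ind, inv_pow, inv_inv, Real.sq_sqrt (hκ _).le]; rfl

theorem tw0_shp (h : T.Tri) (F : T.C) :
    T.tw0 (shp W la) F =
      MvPolynomial.map (algebraMap ℝ (MvPolynomial (shp W la).W ℝ)) (T.top.Φ F) := by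
  have z : (shp W la).el (R := ℝ) (shp W la).ε = 0 := sum_eq_zero fun w _ => by
    rw [show (shp W la).ε w = 0 by simp [shp, Sh.mono, Finsupp.sum], zero_smul]
  ext1 m
  refine (TS.coeff_tw0 F m).trans (Eq.trans ?_ (coeff_map _ _ _).symm)
  classical
  rw [z, show coeff m (T.top.Φ F) = _ from coeff_weightedHomogeneousComponent _ _ _]
  split_ifs with c
  · rw [c, Nat.sub_self, pow_zero, Algebra.algebraMap_eq_smul_one]
  · rcases lt_or_gt_of_ne c with c | c
    · rw [zero_pow (by omega), smul_zero, map_zero]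
    · rw [notMem_support_iff.1 fun k => (h.tri F m k).not_gt c, zero_smul, map_zero]

/-- the coordinate of a word -/
def cw (h : T.Tri) (c : T.C) {B : Finset τ} (hB : #B = T.lev c) : T.Cw (shp univ la) :=
  ⟨(c, ⟨ind B, mem_erase.2 ⟨fun e => (h.lev_pos c).ne' (by rw [← hB, ind_eq_zero.1 e, card_empty]),
    mem_image_of_mem _ (mem_univ B)⟩⟩), unit_ext ((degree_col _ _).trans ((deg_ind B).trans hB))⟩

theorem rz_Yw (h : T.Tri) (Y : T.Cw (shp univ la) → ℝ) (y : T.C → Finset τ → ℝ)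
    (e : ∀ c B (hB : #B = T.lev c), y c B = Y (cw h c hB)) (c : T.C) :
    Sh.rz (univ.image ind) ℝ (T.Yw (shp univ la) Y c) = Yp T.lev y c := by
  refine (map_sum _ _ _).trans (sum_bij (fun B hB => cw h c (mem_powersetCard.1 hB).2)
    (fun B _ => mem_filter.2 ⟨mem_univ _, rfl⟩)
    (fun B _ B' _ k => ind_inj (congrArg (fun x : T.Cw (shp univ la) => x.1.2.1) k))
    (fun x hx => ?_) fun B hB => ?_).symm
  · obtain ⟨⟨F, μ, hμ⟩, k⟩ := x
    obtain rfl : F = c := (mem_filter.1 hx).2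
    obtain ⟨B, -, rfl⟩ := mem_image.1 (mem_of_mem_erase hμ)
    exact ⟨B, mem_powersetCard.2 ⟨subset_univ _, (deg_ind B).symm.trans
      ((degree_col _ _).symm.trans (congrArg Finsupp.degree k))⟩, rfl⟩
  · rw [e c B (mem_powersetCard.1 hB).2]
    refine Eq.trans ?_ ((congrArg _ C_mul_X_eq_monomial).trans (Sh.rz_mon _ _)).symm
    exact congrArg (fun μ => monomial μ _) ((Finsupp.weight_single
      (Subtype.val : (shp univ la).W → τ →₀ ℕ) (cw h c (mem_powersetCard.1 hB).2).1.2 1).trans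
      (one_smul ℕ _)).symm

theorem cf_sy (h : T.Tri) (Y : T.Cw (shp univ la) → ℝ) (y : T.C → Finset τ → ℝ)
    (e : ∀ c B (hB : #B = T.lev c), y c B = Y (cw h c hB)) (w : (shp univ la).W) {B : Finset τ}
    (hw : w.1 = ind B) (F : T.C) : (shp univ la).cf ℝ w (eval (T.Yw _ Y) (T.tw0 _ F)) =
      sy T.lev (T.top.Φ F) y B := by
  refine (Sh.cf_rz w _).trans ?_
  unfold sy
  rw [tw0_shp h, ← funext (rz_Yw h Y y e), ← hw]
  refine congrArg _ ((congrArg _ (eval_map _ _ _)).trans ?_)
  exact comp_aeval_apply _ (Sh.rz (univ.image ind) ℝ) (T.top.Φ F)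

theorem top_stg_A {st : T.C → ℕ} {M : ℕ} (h : T.Stg st M) : (T.top.stg st).A = (T.stg st).A := by
  ext c c'
  refine (TS.stg_A (T := T.top) (st := st) c c').trans
    (Eq.trans ?_ (TS.stg_A (T := T) (st := st) c c').symm)
  refine if_ctx_congr Iff.rfl (fun e => ?_) fun _ => rfl
  classical
  refine (coeff_weightedHomogeneousComponent _ _ _).trans (if_pos ?_)
  exact (Finsupp.weight_single _ _ _).trans ((one_smul _ _).trans (h.lev _ _ e).symm)

end Bi

open Bi in
theorem sbi (hw : SWT) : SBI := by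
  intro T st M t l κ k hs hK hκ hk
  set la : Finset (Fin l) → ℝ := fun B => (√(κ #B))⁻¹ with hla
  have l0 : ∀ B ∈ (univ : Finset (Finset (Fin l))), 0 < la B := fun B _ =>
    inv_pos.2 (Real.sqrt_pos.2 (hκ _))
  obtain ⟨f, fb, f1, -, f3, -⟩ := hw (Fin l) T st M t univ la hs hK (fun _ _ _ _ => mem_univ _) l0
  have h := hs.cl.1
  have e0 : Sh.sym (fun _ : Fin l => ()) κ = shp univ la := shp_sym hκ
  have o : (shp univ la).Ok := e0 ▸ Sh.sym_ok fun j _ => hκ j
  have u0 : (T.tw (shp univ la) (T.tw0 _)).Φ = (T.sh (shp univ la)).Φ :=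
    funext fun p => congrArg ((shp univ la).cf _ p.1.2) (TS.eval₂_tw0 _ _)
  set k' : T.Cw (shp univ la) → ℤ := fun p => if (shp univ la).dg p.1.2 = l then k p.1.1 else 0
    with hk'
  have e1 : T.sbS st t (fun _ : Fin l => ()) κ k = (T.lw (shp univ la) st (T.tw0 _)).bias t k' := by
    unfold TS.sbS
    rw [e0]
    exact congrArg (fun Φ => (((T.sh (shp univ la)).setΦ Φ).stg fun p => st p.1.1).bias t k') u0.symm
  let E : ((lwt T univ st t la).C → ℤ) ≃ (SC T (fun c => st c < t) univ → ℤ) :=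
    (Equiv.ofBijective f fb).symm.arrowCongr (Equiv.refl ℤ)
  have wt : ∀ y, (symT T (fun c => st c < t) univ la (id : Fin l → Fin l)).wt (E y) =
      (lwt T univ st t la).wt y := fun y => by
    rw [← f3, Ir.wt, gs, Ir.qf_one, TT.wt, neg_mul]; rfl
  rw [e1, TT.Z, ← E.tsum_eq, ← E.tsum_eq]
  unfold TS.bias TS.Ecp TS.Ec
  rw [norm_div, Complex.norm_real, Real.norm_of_nonneg (TS.Z_nonneg _)]
  simp only [wt]
  refine congrArg₂ (fun a b => ‖a‖ / b) (tsum_congr fun y => congrArg _ (congrArg ee ?_)) rfl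
  set Y : T.Cw (shp univ la) → ℝ := zc (glue (C := (T.lw (shp univ la) st (T.tw0 _)).C)
    (fun c => (T.lw (shp univ la) st (T.tw0 _)).lev c < t) y 0) with hY
  set y' := sx T (fun c => st c < t) univ fun w => (y (f w) : ℝ) with hy'
  have Y0 : ∀ x, ¬ st x.1.1 < t → Y x = 0 := fun x c =>
    (congrArg Int.cast (dif_neg (mt (TS.lt_iff t x).1 c))).trans Int.cast_zero
  have e : ∀ c B (hB : #B = T.lev c), y' c B = Y (cw h c hB) := fun c B hB => by
    by_cases p : st c < t
    · rw [hy', sx, dif_pos ⟨p, mem_univ _, hB⟩]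
      refine Eq.trans ?_ (congrArg Int.cast (dif_pos ((TS.lt_iff t (cw h c hB)).2 p))).symm
      have := f1 ⟨(c, B), p, mem_univ _, hB⟩
      exact congrArg (fun x => (y x : ℝ))
        (Subtype.ext (Subtype.ext (Prod.ext this.1 (Subtype.ext this.2))))
    · rw [Y0 _ p, hy', sx, dif_neg fun a => p a.1]
  refine (TS.dot_th hs o (hs.adm o) (zc k') Y).trans ?_
  change _ = sy T.lev (php st k) y' univ
  have z : zc k' ⬝ᵥ Y = 0 := sum_eq_zero fun x _ => by
    by_cases a : k x.1.1 = 0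
    · simp [zc, hk', a]
    · rw [Y0 x (by rw [(hk _ a).1]; exact lt_irrefl _), mul_zero]
  rw [z, zero_add, ← sum_fiberwise univ fun x : T.Cw (shp univ la) => x.1.1]
  refine Eq.trans ?_ (sy_sum T.lev y' univ univ _).symm
  refine sum_congr rfl fun c _ => ?_
  by_cases a : k c = 0
  · rw [a, Int.cast_zero, C_0, zero_mul]
    refine (sum_eq_zero fun x hx => ?_).trans (sy_zero _ _ _).symm
    simp [zc, hk', (mem_filter.1 hx).2, a]
  have hl : #(univ : Finset (Fin l)) = T.lev c := by simp [(hk c a).2]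
  have d : ∀ x : T.Cw (shp univ la), x.1.1 = c → x = cw h c hl := by
    rintro ⟨⟨F, μ, hμ⟩, b⟩ rfl
    obtain ⟨B, -, rfl⟩ := mem_image.1 (mem_of_mem_erase hμ)
    obtain rfl : B = univ := eq_univ_of_card B (((deg_ind B).symm.trans ((degree_col _ _).symm.trans
      (congrArg Finsupp.degree b))).trans hl.symm)
    rfl
  refine Eq.trans (sum_eq_single_of_mem (cw h c hl) (by exact mem_filter.2 ⟨mem_univ _, rfl⟩)
    fun x hx ne => by exact (ne (d x (mem_filter.1 hx).2)).elim) ?_
  rw [top_stg_A hs]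
  have kc : zc k' (cw h c hl) = k c := by
    rw [zc, hk']
    exact congrArg _ (if_pos ((deg_ind _).trans (by simp)))
  simp only [kc, C_mul']
  refine Eq.trans ?_ (sy_smul T.lev y' univ _ _).symm
  refine Eq.trans ?_ (congrArg _ (sy_sub T.lev y' univ _ _).symm)
  have x0 : sy T.lev (X c) y' univ = 0 := by
    rw [sy_X, e c univ hl, Y0 _ (show ¬ st c < t by rw [(hk _ a).1]; exact lt_irrefl _), ite_self]
  refine Eq.trans ?_ (congrArg (fun x => _ * x)
    (congrArg₂ (· - ·) x0 (sy_sum T.lev y' univ univ _)).symm)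
  rw [zero_sub, mul_neg, mul_sum, ← sum_neg_distrib]
  refine sum_congr rfl fun F _ => ?_
  refine Eq.trans ?_ (congrArg (fun x => -(_ * x)) (sy_smul T.lev y' univ _ _).symm)
  refine (congrArg (fun x => _ * x) (cf_sy h Y y' e (cw h c hl).1.2 rfl F)).trans ?_
  exact ((congrArg (· * _) (neg_mul _ _)).trans (neg_mul _ _)).trans (congrArg _ (mul_assoc _ _ _))

end Crest.Agent.N49.Sy

end
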