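import Crest.Agent.N49.Sy.Defs
import Crest.Agent.N49.Tw.Api

/-! # Row 49 (helper2): semantic regularity gives the invariant of the symbol tower -/

set_option autoImplicit false

open Finset

namespace Crest.Agent.N49.Sy

open Tw Rm Gd

theorem sinv (h1 : SOK) (h2 : SUN) (h3 : SWT) (h4 : SSZ) : SINV := by
  intro τ L _ _ _ _ T st M t W la blk N n n' a η u hs hK hD hI hB hu ha hn hS
  obtain ⟨ok, hm, -⟩ := h1 τ L T st M t W la blk hs hD hI fun B h => (hB B h).2.1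
  refine ⟨ok, hm, fun o _ => ?_⟩
  obtain ⟨d, c, e⟩ := h2 τ L (Fin N) T (fun c => st c < t) W la blk hs.cl.1 hD hI o fun _ => u
  have hl : ∀ D ∈ clW W blk o, 0 < la (D.image Prod.fst) * ∏ _x ∈ D, u ∧
      a * (la (D.image Prod.fst) * ∏ _x ∈ D, u) ^ 2 ≤ 1 := fun D hD' => by
    obtain ⟨-, k1, k2, -⟩ := mem_filter.1 hD'
    obtain ⟨b1, b2, b3⟩ := hB _ k1
    rw [prod_const]
    refine ⟨by positivity, le_trans ?_ b3⟩
    have := pow_le_pow_right₀ hu (k2 ▸ b1)
    gcongr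
  obtain ⟨-, -, -, -, -, e'⟩ := h3 (τ × Fin N) T st M t _ _ hs hK d fun D k => (hl D k).1
  have c' := c M fun B k => (hB B k).1
  rw [Fintype.card_fin] at c'
  have p : 0 < (N + 1) ^ M := by positivity
  have sz := h4 _ _ _ n a d hl (by nlinarith) (by nlinarith)
  have m := hS _ _ _ sz (hs.adm sz.toOk)
  have z := ((TS.lw_tri hs (hs.adm sz.toOk) sz.toOk).lt t).Zc_pos
  rw [e, e', div_le_iff₀ z, add_mul, one_mul]
  exact sub_le_iff_le_add'.1 (abs_le.1 m).2

end Crest.Agent.N49.Sy
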