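import Crest.Agent.N49.Sy.Defs
import Crest.Agent.N49.Rm.Law

/-! # Row 49 (helper17): a biased datum is trivial on many fibres -/

set_option autoImplicit false
set_option linter.unusedSectionVars false

open Finset Matrix

noncomputable section

namespace Crest.Agent.N49.Sy

open Rm Gd Po Rm.TT

namespace St

variable {L C : Type} [Fintype L] [DecidableEq L] [Fintype C] [DecidableEq C] {T : TT L C}
  {F : Fm L C} {i : L}

/-- the frequency of `F` on the block of `i` -/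
def xi (T : TT L C) (i : L) (F : Fm L C) (y : C → ℤ) : T.Bl i → ℝ :=
  fun c => F (T.jr i (cf y) (Pi.single c 1) 0)

theorem xi_jn (y : C → ℤ) (n : T.Bl i → ℤ) : xi T i F (T.jn i y n) = xi T i F y := by
  funext c; rw [xi, cf_jn, jr_jr]; rfl

theorem jr_e (p : C ⊕ L → ℝ) (n : T.Bl i → ℝ) (e e' : ℝ) (c : C) :
    T.jr i p n e (.inl c) = T.jr i p n e' (.inl c) := rfl

theorem ce_zero (h : T.Ok) (hm : Hm T) (y : C → ℤ) : T.ce i y = 0 := by
  have : T.of i (cf y) = 0 := funext fun c => by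
    rw [TT.of, hm _ _ (jr_e _ 0 1 0), h.phi_in]; simp
  rw [ce, this, mulVec_zero, neg_zero]

theorem F_jr (hF : T.Lin i F) (y : C → ℤ) (n : T.Bl i → ℝ) :
    F (T.jr i (cf y) n 0) = xi T i F y ⬝ᵥ n := by
  rw [hF.expand, zero_mul, add_zero]; rfl

/-- a short dual vector is a relation -/
theorem rel_of (h : T.Ok) {y : C → ℤ} {R B : ℝ} (hF : T.Lin i F) (hB : 0 ≤ B) {m : T.Bl i → ℤ}
    (hm : qf (T.Mm i y)⁻¹ (zc m - xi T i F y) < R) (e : Fintype.card (T.Bl i) * R ≤ B ^ 2) :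
    T.Rel univ {i} y 1 B F := by
  refine ⟨fun p => ∑ c : T.Bl i, (m c : ℝ) * p (.inl c.1),
    ⟨Dat.sum _ fun c _ => (Dat.coord (v := .inl c.1) (subset_univ _) ⟨i, c.2⟩ (singleton_subset_iff.2 c.2)).smul _,
      fun p _ k => ?_⟩, fun p b k => ?_⟩
  · choose f hf using k
    exact ⟨∑ c : T.Bl i, m c * f (.inl c.1), by simp [hf]⟩
  · have e1 := h.sum_sq i y (fun c => p (.inl c.1)) 0
    rw [← eq_jr_of_fib b, zero_smul, sub_zero] at e1
    have e2 : qf (T.Mm i y) (fun c => p (.inl c.1)) ≤ Fintype.card (T.Bl i) := by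
      rw [← e1]
      refine (sum_le_card_nsmul _ _ 1 fun c _ => ?_).trans (by simp)
      exact (sq_le_one_iff_abs_le_one _).2 (k c.1 (subset_univ _) (by simpa using c.2))
    have e3 := dual_sq_le (h.Mm_pd i y) (fun c => p (.inl c.1)) (zc m - xi T i F y)
    have e4 : F p = xi T i F y ⬝ᵥ fun c => p (.inl c.1) := by
      rw [← F_jr hF, ← eq_jr_of_fib b]
    refine abs_le_of_sq_le_sq' ?_ hB |> abs_le.2
    beta_reduce
    rw [← neg_sq, e4]
    refine le_trans (le_of_eq ?_) (e3.trans (le_trans ?_ e))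
    · simp [sub_dotProduct, dotProduct, zc, sub_mul]
    · rw [mul_comm]
      exact mul_le_mul e2 hm.le (qf_nonneg (h.Mm_pd i y).inv _) (Nat.cast_nonneg _)

/-- the conditional bias -/
def cb (T : TT L C) (i : L) (F : Fm L C) (y : C → ℤ) : ℝ :=
  ‖thc (T.Mm i y) 0 (xi T i F y)‖ / th (T.Mm i y) 0

theorem cb_mem (h : T.Ok) (y : C → ℤ) : 0 ≤ cb T i F y ∧ cb T i F y ≤ 1 :=
  ⟨div_nonneg (norm_nonneg _) (th_nonneg _ _),
    (div_le_one (th_pos (h.Mm_pd i y) _)).2 (norm_thc_le_th (h.Mm_pd i y) _ _)⟩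

theorem bias_le (h : T.Ok) (hm : Hm T) (hF : T.Lin i F)
    (h0 : ∀ p p', (∀ c, p (.inl c) = p' (.inl c)) → F p = F p') :
    ‖∑' y, (T.wt y : ℂ) * ee (F (cf y))‖ ≤ ∑' y, T.wt y * cb T i F y := by
  have s1 : Summable fun y => (T.wt y : ℂ) * ee (F (cf y)) :=
    .of_norm (h.summable.congr fun y => by simp [norm_ee, abs_of_pos (wt_pos y)])
  have s2 := h.summable_mul (B := 1) (g := cb T i F) fun y =>
    (abs_of_nonneg (cb_mem h y).1).trans_le (cb_mem h y).2
  rw [tsum_fb (T := T) i s2, ← (T.fbE i).tsum_eq]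
  refine (congrArg norm ((T.fbE i).summable_iff.2 s1).tsum_prod).trans_le
    (tsum_of_norm_bounded (summable_fb (T := T) i s2).hasSum fun r => le_of_eq ?_)
  simp only [Function.comp, fbE_eq, h.wt_jn, cf_jn, h0 _ _ (jr_e _ _ 1 0), F_jr hF, ce_zero h hm, cb, xi_jn, Mm_jn,
    Complex.ofReal_mul, mul_assoc]
  rw [tsum_mul_left, tsum_mul_left, tsum_mul_right, norm_mul, Complex.norm_real,
    Real.norm_of_nonneg (wr_pos _ _).le]
  congr 1
  exact (mul_div_cancel₀ _ (th_pos (h.Mm_pd i _) 0).ne').symm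

end St

theorem start : START := by
  intro L C _ _ _ _ T F i n h hm hF h0 hC hb
  have l := hF.2 i (mem_singleton_self i)
  have k := hb.trans ((div_le_div_of_nonneg_right (St.bias_le h hm l h0) h.Z_pos.le).trans
    (h.markov' (St.cb_mem (i := i) (F := F) h) (t := (1 / 2) ^ (n + 1)) (by positivity)))
  have hc : Fintype.card (T.Bl i) ≤ 2 ^ n := (Fintype.card_subtype_le _).trans hC
  refine le_trans (by linarith [pow_succ (1 / 2 : ℝ) n]) (h.pr_mono
    (H := {y | (1 / 2) ^ (n + 1) < St.cb T i F y}) fun y hy => ?_)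
  obtain ⟨m, e⟩ := exists_dual (h.Mm_pd i y) (R := 2 ^ (n + (n + 1) + 1))
    ((mul_le_mul_of_nonneg_right (bz_le_half hc) (th_nonneg _ _)).trans_lt
      ((lt_div_iff₀ (th_pos (h.Mm_pd i y) _)).1 hy))
  refine St.rel_of h l (by positivity) e ?_
  calc _ ≤ (2 : ℝ) ^ n * 2 ^ (n + (n + 1) + 1) := by gcongr; exact_mod_cast hc
    _ ≤ _ := by rw [← pow_add, ← pow_mul]; exact pow_le_pow_right₀ (by norm_num) (by omega)

end Crest.Agent.N49.Sy

end
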