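import Crest.Agent.N49.Sy.Defs
import Crest.Agent.N49.Tw.Api
import Crest.Agent.N49.Gd.Goodx

/-! # Row 49 (helper2): a biased symbol is trivial -/

set_option autoImplicit false

open Finset MvPolynomial

namespace Crest.Agent.N49.Sy

open Tw Rm Gd

/-- polynomially bounded functions -/
def PB (f : ℕ → ℕ) : Prop := ∃ K : ℕ, ∀ n, 2 ≤ n → f n ≤ n ^ K

namespace PB
variable {f g : ℕ → ℕ}

theorem const (c : ℕ) : PB fun _ => c :=
  ⟨c, fun _ h => Nat.lt_two_pow_self.le.trans (Nat.pow_le_pow_left h _)⟩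

theorem idt : PB fun n => n := ⟨1, fun _ _ => by simp⟩

theorem mul (a : PB f) (b : PB g) : PB fun n => f n * g n :=
  let ⟨K, a⟩ := a; let ⟨K', b⟩ := b
  ⟨K + K', fun n h => by rw [pow_add]; exact Nat.mul_le_mul (a n h) (b n h)⟩

theorem add (a : PB f) (b : PB g) : PB fun n => f n + g n :=
  let ⟨K, a⟩ := a; let ⟨K', b⟩ := b
  ⟨K + K' + 1, fun n h => by
    have c := (a n h).trans (Nat.pow_le_pow_right (by omega) (Nat.le_add_right K K'))
    have d := (b n h).trans (Nat.pow_le_pow_right (by omega) (Nat.le_add_left K' K))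
    rw [pow_succ]; nlinarith⟩

theorem pow (a : PB f) (c : ℕ) : PB fun n => f n ^ c :=
  let ⟨K, a⟩ := a
  ⟨K * c, fun n h => by rw [pow_mul]; exact Nat.pow_le_pow_left (a n h) _⟩

end PB

theorem php_hom {T : TS Unit} {st : T.C → ℕ} {M l : ℕ} {k : T.C → ℤ} (hs : T.Stg st M)
    (hk : ∀ c, k c ≠ 0 → T.lev c = l) : (php st k).IsWeightedHomogeneous T.lev l := by
  refine IsWeightedHomogeneous.sum _ _ _ fun (c : T.C) _ => ?_
  by_cases e : k c = 0
  · rw [e, Int.cast_zero, C_0, zero_mul]; exact isWeightedHomogeneous_zero _ _ _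
  refine IsWeightedHomogeneous.C_mul (IsWeightedHomogeneous.sub ?_
    (IsWeightedHomogeneous.sum _ _ _ fun (c' : T.C) _ => ?_)) _
  · rw [← hk c e]; exact isWeightedHomogeneous_X _ _ _
  · by_cases e2 : (T.top.stg st).lev c = (T.top.stg st).lev c'
    · have e3 : st c = st c' := ((TS.stg_lev (T := T.top) c).symm.trans e2).trans
        (TS.stg_lev (T := T.top) c')
      rw [← hk c e, hs.lev _ _ e3]; exact (T.top_hom c').C_mul _
    · rw [blk_inv (T.top.stg st).blk_A c c' e2, C_0, zero_mul]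
      exact isWeightedHomogeneous_zero _ _ _

theorem triv_mono {σ : Type} {T : TS σ} {q : ℕ} {r r' : ℝ} {P : MvPolynomial T.C ℝ}
    (h : T.Triv q r P) (h0 : 0 ≤ r) (e : r ≤ r') : T.Triv q r' P :=
  let ⟨I, g, a, b⟩ := h
  ⟨I, g, a, b.trans (pow_le_pow_left₀ h0 e 2)⟩

theorem kap_ge (N g : ℕ) : (1 : ℝ) / 2 ^ ((g + 5 + N * N) * (g + 1)) ≤
    (1 / 2 ^ (g + 5) / (N + 1) ^ N) ^ (g + 1) := by
  rw [pow_mul, ← _root_.one_div_pow, div_div, pow_add _ (g + 5), pow_mul]
  have : (N + 1 : ℝ) ≤ 2 ^ N := by exact_mod_cast Nat.lt_two_pow_self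
  gcongr

theorem jbs (h1 : SOK) (h2 : SINV) (h3 : SBI) (h4 : START) (h5 : END) {M : ℕ} (h6 : BB M) :
    JBS M := by
  obtain ⟨K0, hb⟩ := h6
  obtain ⟨G, hG⟩ : ∃ G : ℕ → ℕ, G = fun n => (2 * (n + M) + 4) ^ K0 := ⟨_, rfl⟩
  have pG : PB G := hG ▸ (((PB.const 2).mul (PB.idt.add (.const M))).add (.const 4)).pow K0
  have pN : PB fun n => M + 9 * G n := (PB.const M).add ((PB.const 9).mul pG)
  have p1 : PB fun n => G n + 1 := pG.add (.const 1)
  obtain ⟨K, hK⟩ : PB fun n => (2 ^ M + 1) * (M + 9 * G n + 1) ^ M + G n * (G n + 1) * M * 2 +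
      (G n + 5 + (M + 9 * G n) * (M + 9 * G n)) * (G n + 1) + (G n + M * M) +
      (G n + n + M + 1) * (M + 1) ^ 3 :=
    (((((PB.const _).mul ((pN.add (.const 1)).pow M)).add
      (((pG.mul p1).mul (.const M)).mul (.const 2))).add
      (((pG.add (.const 5)).add (pN.mul pN)).mul p1)).add (pG.add (.const _))).add
      ((((pG.add .idt).add (.const M)).add (.const 1)).mul (.const _))
  refine ⟨K, fun T st t l n κ b k hs h1' hn l1 lM hc hb0 hκ hk hS hB => ?_⟩
  have E := hK n hn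
  obtain ⟨g, hg⟩ : ∃ g, g = G n := ⟨_, rfl⟩
  simp only [← hg] at E
  have p2 : ∀ {a b : ℕ}, a ≤ b → 2 ^ a ≤ 2 ^ b := fun h => Nat.pow_le_pow_right two_pos h
  have p3 : ∀ {a b : ℕ}, a ≤ b → (2 : ℝ) ^ a ≤ 2 ^ b := fun h => pow_le_pow_right₀ one_le_two h
  have b0 : 0 < b := lt_of_lt_of_le (by positivity) hb0
  have κ0 : ∀ j, 0 < κ j := fun j => b0.trans_le (hκ j)
  have la0 : ∀ B : Finset (Fin l), 0 < (√(κ #B))⁻¹ := fun B => inv_pos.2 (Real.sqrt_pos.2 (κ0 _))
  have hD : Dw (univ : Finset (Finset (Fin l))) := fun _ _ _ _ => mem_univ _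
  have hI : ∀ B ∈ (univ : Finset (Finset (Fin l))), Set.InjOn (id : Fin l → Fin l) B :=
    fun _ _ => Set.injOn_id _
  obtain ⟨ok, hm, dat⟩ := h1 (Fin l) (Fin l) T st M t univ _ id hs hD hI fun B _ => la0 B
  have dt := dat (php st k) univ (mem_univ _)
  rw [image_id] at dt
  rw [h3 T st M t l κ k hs h1' κ0 hk] at hB
  have cW : Fintype.card (Finset (Fin l)) ≤ 2 ^ M := by
    rw [Fintype.card_finset, Fintype.card_fin]; exact p2 lM
  have cC : Fintype.card (SC T (fun c => st c < t) (univ : Finset (Finset (Fin l)))) ≤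
      2 ^ (n + M) := by
    refine (Fintype.card_subtype_le _).trans ?_
    rw [Fintype.card_prod, pow_add]
    exact Nat.mul_le_mul hc cW
  have s := h4 _ _ _ _ ⟨0, l1⟩ (n + M) ok hm (dt.mono Subset.rfl (subset_univ _))
    (fun p p' e => by simp only [sF, e]) cC ((half_anti (Nat.le_add_right n M)).trans hB)
  have iv := h2 (Fin l) (Fin l) T st M t univ _ id (M + 9 * g) (n ^ K) (M + 9 * g) _ _
    (2 ^ (g * (g + 1))) hs h1' hD hI (fun B _ => ⟨(card_le_univ B).trans (by simpa using lM),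
      la0 B, by
        rw [mul_pow, inv_pow, Real.sq_sqrt (κ0 _).le, ← pow_mul, ← pow_mul, ← mul_assoc,
          div_mul_eq_mul_div, div_mul_eq_mul_div, div_le_one (by positivity)]
        refine (mul_le_of_le_one_left (by positivity)
          (mul_inv_le_one_of_le₀ (hκ _) (κ0 _).le)).trans (p3 ?_)
        rw [← mul_assoc]; omega⟩)
    (one_le_pow₀ one_le_two) (by positivity)
    (le_trans (Nat.mul_le_mul_right _ (Nat.add_le_add_right cW 1)) (by omega)) hS
  have gd := goodT _ g g _ _ _ _ (by simpa using lM) le_rfl (iv.mono le_rfl (by positivity) le_rfl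
    ((one_div_le_one_div_of_le (by positivity) (p3 (by omega))).trans (kap_ge _ g)))
  obtain ⟨q, q1, q2, r⟩ := hb _ _ _ Unit (2 * (n + M) + 4) _ univ {(⟨0, l1⟩ : Fin l)} 1 (fun _ => _)
    (by simpa using lM) ⟨by omega, cC.trans (p2 (by omega)), (half_anti (by omega)).trans s⟩
    (by rw [hg, hG] at gd; exact gd) (by simp) (singleton_nonempty _) (subset_univ _)
    (fun _ => dt) le_rfl Nat.one_le_two_pow fun y hy _ => hy
  have e : (2 * (n + M) + 4) ^ K0 = g := by rw [hg, hG]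
  rw [e] at q2 r
  have := h5 T st M t l (g + n) q _ (php st k) 0 hs l1 lM (fun B => ⟨la0 B, ?_⟩)
    (fun B B' e => by rw [e]) (hc.trans (p2 (by omega))) q1 (php_hom hs fun c z => (hk c z).2)
    ((r 0 ()).mono (p3 (by omega)))
  · refine ⟨_, Nat.mul_pos q1 l.factorial_pos, ?_, triv_mono this (by positivity) (p3 (by omega))⟩
    refine le_trans (Nat.mul_le_mul q2 ((Nat.factorial_le lM).trans (M.factorial_le_pow.trans
      (Nat.pow_le_pow_left Nat.lt_two_pow_self.le M)))) ?_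
    rw [← pow_mul, ← pow_add]
    exact p2 (by omega)
  · refine inv_le_of_inv_le₀ (by positivity) (Real.le_sqrt_of_sq_le (le_trans ?_ (hb0.trans (hκ _))))
    rw [← inv_pow, ← pow_mul, ← one_div]
    exact half_anti (by omega)

end Crest.Agent.N49.Sy
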