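import Crest.Agent.N49.Sy.Sinv
import Crest.Agent.N49.Sy.Jbs
import Crest.Agent.N49.Sy.Sok
import Crest.Agent.N49.Sy.Sun
import Crest.Agent.N49.Sy.Swt
import Crest.Agent.N49.Sy.Ssz
import Crest.Agent.N49.Sy.Sbi
import Crest.Agent.N49.Sy.Start
import Crest.Agent.N49.Sy.End
import Crest.Agent.N49.Rm.Bb
import Crest.Agent.N49.Rm.Free
import Crest.Agent.N49.Rm.Uqs
import Crest.Agent.N49.Rm.Box
import Crest.Agent.N49.Rm.Clm
import Crest.Agent.N49.Rn.Brel

/-! # Row 49 (helper2): the bridge, glued -/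

namespace Crest.Agent.N49.Sy

open Tw Rm

theorem sinvT : SINV := sinv sok sun swt ssz

theorem bbT (mg : MG) (ce : CEN) (M : ℕ) : BB M :=
  bb mono (free mono mg (box mono clm0) (uqs clm0 ce) M)

theorem jbsT (mg : MG) (ce : CEN) (M : ℕ) : JBS M :=
  jbs sok sinvT (sbi swt) start (end_of sok) (bbT mg ce M)

theorem brelT (mg : MG) (ce : CEN) (M : ℕ) : BREL M := brel (jbsT mg ce M)

end Crest.Agent.N49.Sy
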