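import Crest.Agent.N49.Po.Poi

/-!
# Row 49 (helper2): the squarefree symbol of a polynomial in weighted coordinates

`sy lev P y S` is the coefficient of `t ^ S` in `P (Y t)`, `Y c t = ∑_{#B = lev c} y c B t ^ B`.
-/

set_option autoImplicit false

open Finset MvPolynomial

noncomputable section

namespace Crest.Agent.N49.Sy

variable {ι L L' : Type} [DecidableEq L] [DecidableEq L']

/-- the squarefree exponent of a set of letters -/
def ind (S : Finset L) : L →₀ ℕ := ⟨S, fun i => if i ∈ S then 1 else 0, by simp⟩

theorem ind_apply (S : Finset L) (i : L) : ind S i = if i ∈ S then 1 else 0 := rfl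

theorem ind_inj {A B : Finset L} (h : ind A = ind B) : A = B := congrArg Finsupp.support h

theorem ind_empty : ind (∅ : Finset L) = 0 := by ext i; simp [ind_apply]

theorem ind_eq_zero {S : Finset L} : ind S = 0 ↔ S = ∅ :=
  ⟨fun h => ind_inj (h.trans ind_empty.symm), fun h => h ▸ ind_empty⟩

theorem coeff_ind_mul (a b : MvPolynomial L ℝ) (S : Finset L) : coeff (ind S) (a * b) =
    ∑ A ∈ S.powerset, coeff (ind A) a * coeff (ind (S \ A)) b := by
  rw [coeff_mul]
  refine (sum_bij (fun A _ => (ind A, ind (S \ A))) (fun A h => ?_)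
    (fun A _ B _ h => ind_inj (congrArg Prod.fst h)) (fun u h => ?_) fun _ _ => rfl).symm
  · rw [HasAntidiagonal.mem_antidiagonal]
    ext i
    have := @mem_powerset.1 h i
    simp only [Finsupp.add_apply, ind_apply, mem_sdiff]
    by_cases k : i ∈ A <;> by_cases k' : i ∈ S <;> simp_all
  · have e : ∀ i, u.1 i + u.2 i = if i ∈ S then 1 else 0 := fun i =>
      congrArg (fun f : L →₀ ℕ => f i) (HasAntidiagonal.mem_antidiagonal.1 h)
    refine ⟨u.1.support, mem_powerset.2 fun i k => ?_, Prod.ext ?_ ?_⟩
    · have := e i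
      have := Finsupp.mem_support_iff.1 k
      by_contra a
      simp only [a, if_false] at *
      omega
    · ext i
      have := e i
      simp only [ind_apply, Finsupp.mem_support_iff]
      split_ifs at * <;> omega
    · ext i
      have := e i
      simp only [ind_apply, mem_sdiff, Finsupp.mem_support_iff]
      by_cases k : i ∈ S <;> by_cases k' : u.1 i = 0 <;> simp [k, k'] at this ⊢ <;> omega

variable [Fintype L] [Fintype L'] (lev : ι → ℕ)

/-- the polynomial map with the given squarefree coefficients -/
def Yp (y : ι → Finset L → ℝ) (c : ι) : MvPolynomial L ℝ :=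
  ∑ B ∈ powersetCard (lev c) univ, monomial (ind B) (y c B)

/-- the symbol -/
def sy (P : MvPolynomial ι ℝ) (y : ι → Finset L → ℝ) (S : Finset L) : ℝ :=
  coeff (ind S) (aeval (Yp lev y) P)

variable (y y' : ι → Finset L → ℝ) (S : Finset L)

theorem sy_add (P Q : MvPolynomial ι ℝ) : sy lev (P + Q) y S = sy lev P y S + sy lev Q y S := by
  simp [sy]

theorem sy_sub (P Q : MvPolynomial ι ℝ) : sy lev (P - Q) y S = sy lev P y S - sy lev Q y S := by
  simp [sy, coeff_sub]

theorem sy_zero : sy lev 0 y S = 0 := by simp [sy]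

theorem sy_sum {κ : Type*} (s : Finset κ) (P : κ → MvPolynomial ι ℝ) :
    sy lev (∑ k ∈ s, P k) y S = ∑ k ∈ s, sy lev (P k) y S := by
  simp [sy, coeff_sum]

theorem sy_smul (a : ℝ) (P : MvPolynomial ι ℝ) : sy lev (a • P) y S = a * sy lev P y S := by
  simp [sy]

theorem sy_mul (P Q : MvPolynomial ι ℝ) : sy lev (P * Q) y S =
    ∑ A ∈ S.powerset, sy lev P y A * sy lev Q y (S \ A) := by
  simp only [sy, map_mul, coeff_ind_mul]

theorem sy_C (a : ℝ) : sy lev (C a) y S = if S = ∅ then a else 0 := by
  simp only [sy, aeval_C, algebraMap_eq, coeff_C, eq_comm (a := (0 : L →₀ ℕ)), ind_eq_zero]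

theorem sy_X (c : ι) : sy lev (X c) y S = if #S = lev c then y c S else 0 := by
  simp only [sy, aeval_X, Yp, coeff_sum, coeff_monomial]
  rw [sum_congr rfl fun B _ => if_congr (⟨ind_inj, fun h => h ▸ rfl⟩ : ind B = ind S ↔ B = S)
    rfl rfl, sum_ite_eq']
  simp

variable {y y' S}

/-- the symbol is typed -/
theorem sy_congr {s : Set ι} {P : MvPolynomial ι ℝ} (hP : P ∈ supported ℝ s)
    (h : ∀ c ∈ s, ∀ B ⊆ S, #B = lev c → y c B = y' c B) : sy lev P y S = sy lev P y' S := by
  induction hP using Algebra.adjoin_induction generalizing S with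
  | mem x hx =>
    obtain ⟨c, hc, rfl⟩ := hx
    rw [sy_X, sy_X]
    split_ifs with k
    · exact h c hc S subset_rfl k
    · rfl
  | algebraMap a => rw [algebraMap_eq, sy_C, sy_C]
  | add p q _ _ hp hq => rw [sy_add, sy_add, hp h, hq h]
  | mul p q _ _ hp hq =>
    rw [sy_mul, sy_mul]
    refine sum_congr rfl fun A k => ?_
    rw [hp fun c hc B b => h c hc B (b.trans (mem_powerset.1 k)),
      hq fun c hc B b => h c hc B (b.trans sdiff_subset)]

theorem sy_congr' (P : MvPolynomial ι ℝ) (h : ∀ c, ∀ B ⊆ S, #B = lev c → y c B = y' c B) :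
    sy lev P y S = sy lev P y' S :=
  sy_congr lev (s := Set.univ) (by simp) fun c _ => h c

/-- the symbol is linear in the block of every letter of the word -/
theorem sy_lin (P : MvPolynomial ι ℝ) {i : L} (hi : i ∈ S) {y₁ y₂ : ι → Finset L → ℝ} (a b : ℝ)
    (h1 : ∀ c B, i ∉ B → y₁ c B = y c B) (h2 : ∀ c B, i ∉ B → y₂ c B = y c B)
    (h : ∀ c B, i ∈ B → y c B = a * y₁ c B + b * y₂ c B) :
    sy lev P y S = a * sy lev P y₁ S + b * sy lev P y₂ S := by
  induction P using MvPolynomial.induction_on generalizing S with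
  | C r => simp [sy_C, ne_empty_of_mem hi]
  | add p q hp hq => rw [sy_add, sy_add, sy_add, hp hi, hq hi]; ring
  | mul_X p c hp =>
    rw [sy_mul, sy_mul, sy_mul, mul_sum, mul_sum, ← sum_add_distrib]
    refine sum_congr rfl fun A _ => ?_
    rw [sy_X, sy_X, sy_X]
    by_cases k : i ∈ A
    · have n : i ∉ S \ A := fun e => (mem_sdiff.1 e).2 k
      rw [hp k, h1 c _ n, h2 c _ n]; ring
    · rw [sy_congr' lev p (y := y₁) (y' := y) fun c B b _ => h1 c B fun e => k (b e),
        sy_congr' lev p (y := y₂) (y' := y) fun c B b _ => h2 c B fun e => k (b e),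
        h c _ (mem_sdiff.2 ⟨hi, k⟩)]
      split_ifs <;> ring

/-- relabelling the letters -/
theorem sy_map (f : L ↪ L') (P : MvPolynomial ι ℝ) (z : ι → Finset L' → ℝ) (S : Finset L) :
    sy lev P (fun c B => z c (B.map f)) S = sy lev P z (S.map f) := by
  induction P using MvPolynomial.induction_on generalizing S with
  | C r => simp [sy_C]
  | add p q hp hq => rw [sy_add, sy_add, hp, hq]
  | mul_X p c hp =>
    rw [sy_mul, sy_mul]
    refine sum_bij (fun A _ => A.map f) (fun A h => ?_) (fun A _ B _ h => map_injective f h)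
      (fun B h => ?_) fun A h => ?_
    · exact mem_powerset.2 (map_subset_map.2 (mem_powerset.1 h))
    · obtain ⟨A, a, rfl⟩ := subset_map_iff.1 (mem_powerset.1 h)
      exact ⟨A, mem_powerset.2 a, rfl⟩
    · rw [hp, sy_X, sy_X, ← Finset.map_sdiff, card_map]

/-- the diagonal -/
theorem sy_diag (P : MvPolynomial ι ℝ) (Y : ι → ℝ) (S : Finset L) :
    sy lev P (fun c B => (#B).factorial * Y c) S = (#S).factorial * Polynomial.coeff
      (aeval (fun c => Polynomial.C (Y c) * Polynomial.X ^ lev c) P) #S := by
  induction P using MvPolynomial.induction_on generalizing S with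
  | C r =>
    rw [sy_C, aeval_C, Polynomial.algebraMap_eq, Polynomial.coeff_C]
    by_cases h : S = ∅ <;> simp [h]
  | add p q hp hq => rw [sy_add, hp, hq, map_add, Polynomial.coeff_add, mul_add]
  | mul_X p c hp =>
    rw [sy_mul, map_mul, aeval_X, Polynomial.coeff_mul,
      Finset.Nat.sum_antidiagonal_eq_sum_range_succ_mk, mul_sum, sum_powerset]
    refine sum_congr rfl fun k hk => ?_
    have hk' : k ≤ #S := Nat.lt_succ_iff.1 (mem_range.1 hk)
    rw [sum_congr rfl (g := fun _ => (k.factorial * Polynomial.coeff (aeval (fun c =>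
      Polynomial.C (Y c) * Polynomial.X ^ lev c) p) k) * if #S - k = lev c then
        ((#S - k).factorial * Y c : ℝ) else 0) fun A hA => by
      rw [hp, sy_X, card_sdiff_of_subset (mem_powersetCard.1 hA).1, (mem_powersetCard.1 hA).2],
      sum_const, card_powersetCard, nsmul_eq_mul, Polynomial.coeff_C_mul, Polynomial.coeff_X_pow,
      ← Nat.choose_mul_factorial_mul_factorial hk']
    split_ifs <;> push_cast <;> ring

/-- a monomial of the wrong weight has no symbol -/
theorem sy_hom {P : MvPolynomial ι ℝ} {n : ℕ} (hP : P.IsWeightedHomogeneous lev n)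
    (y : ι → Finset L → ℝ) {S : Finset L} (h : #S ≠ n) : sy lev P y S = 0 := by
  induction hP using IsWeightedHomogeneous.induction_on generalizing S with
  | zero => exact sy_zero _ _ _
  | add p q _ _ hp hq => rw [sy_add, hp h, hq h, add_zero]
  | monomial d r hd =>
    subst hd
    induction d using Finsupp.induction_linear generalizing S r with
    | zero => rw [monomial_zero', sy_C, if_neg fun e => h (by simp [e])]
    | add f g hf hg =>
      rw [← mul_one r, ← monomial_mul, sy_mul]
      refine sum_eq_zero fun A hA => ?_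
      by_cases k : #A = Finsupp.weight lev f
      · rw [hg 1 fun e => h (by
          rw [map_add, ← k, ← e, card_sdiff_of_subset (mem_powerset.1 hA),
            Nat.add_sub_cancel' (card_le_card (mem_powerset.1 hA))]), mul_zero]
      · rw [hf r k, zero_mul]
    | single c n =>
      induction n generalizing S with
      | zero => rw [Finsupp.single_zero, monomial_zero', sy_C, if_neg fun e => h (by simp [e])]
      | succ n ih =>
        rw [Finsupp.single_add, ← mul_one r, ← monomial_mul, sy_mul]
        refine sum_eq_zero fun A hA => ?_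
        by_cases k : #A = Finsupp.weight lev (Finsupp.single c n)
        · rw [← X, sy_X, if_neg fun e => h (by
            rw [Finsupp.single_add, map_add, ← k, Finsupp.weight_single, one_smul, ← e,
              card_sdiff_of_subset (mem_powerset.1 hA),
              Nat.add_sub_cancel' (card_le_card (mem_powerset.1 hA))]), mul_zero]
        · rw [ih k, zero_mul]

end Crest.Agent.N49.Sy
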