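import Crest.Agent.N49.Sy.Fin
import Crest.Agent.N49.Rm.Mgn

/-! # Row 49 (helper2): the bridge, without hypotheses -/

namespace Crest.Agent.N49.Sy

theorem jbsA (M : ℕ) : JBS M := jbsT Rm.mg Rm.cen M

theorem brelA (M : ℕ) : Tw.BREL M := brelT Rm.mg Rm.cen M

end Crest.Agent.N49.Sy
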